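import Vale.Agent.P209.H564.FinD
import Vale.Agent.P209.H687.Defs

/-!
# P209, H564: from the strip map of `H687.Defs` to the model `ModelD`
-/

namespace Vale.Agent.P209.H564

open Vale.Agent.P209 Vale.Agent.P209.H578 Vale.Agent.P209.H684 Vale.Agent.P209.H519
open Vale.Agent.P209.H974 (Tk IntA DomW DomD MapOn NearA StripD StripSpecD wrapSpecD Wr)
open Vale.Agent.P209.H687
open scoped ContDiff

lemma Vm_isOpen (R c m : ℝ) : IsOpen (Vm R c m) := by
  unfold Vm
  have h0 : Continuous fun u : Fin 2 → ℝ => u 0 := continuous_apply 0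
  have h1 : Continuous fun u : Fin 2 → ℝ => u 1 := continuous_apply 1
  exact (isOpen_lt continuous_const h0).inter ((isOpen_lt continuous_const h1).inter
    ((isOpen_lt h0 continuous_const).inter (isOpen_lt (h0.add h1) continuous_const)))

lemma Cm_eq (R c m : ℝ) (u : Fin 2 → ℝ) : Cm R c m u =
    3 * R + c - 7 * (u 0 + u 1) - 2 * H684.chi (m / 100) (u 0 + u 1 - c) - m / 2 := by
  unfold Cm Pm Lam
  ring

lemma Cm_contDiff (R c m : ℝ) : ContDiff ℝ ∞ (Cm R c m) := by
  have h : Cm R c m = fun u => 3 * R + c - 7 * (u 0 + u 1) -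
      2 * H684.chi (m / 100) (u 0 + u 1 - c) - m / 2 := funext fun u => Cm_eq R c m u
  rw [h]
  have h0 : ContDiff ℝ ∞ fun u : Fin 2 → ℝ => u 0 := contDiff_apply ℝ ℝ (0 : Fin 2)
  have h1 : ContDiff ℝ ∞ fun u : Fin 2 → ℝ => u 1 := contDiff_apply ℝ ℝ (1 : Fin 2)
  exact ((contDiff_const.sub (contDiff_const.mul (h0.add h1))).sub (contDiff_const.mul
    ((chi_contDiff (m / 100)).comp ((h0.add h1).sub contDiff_const)))).sub contDiff_const

/-- the length of the model is close to the maximal one -/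
lemma Cm_ge {R c m : ℝ} (hm : 0 < m) (u : Fin 2 → ℝ) : C3 R c (u 0 + u 1) - m ≤ Cm R c m u := by
  rw [Cm_eq]
  have h1 := chi_le (t := u 0 + u 1 - c) (show 0 < m / 100 by positivity)
  rcases le_total (u 0 + u 1) c with h | h
  · rw [max_eq_right (by linarith)] at h1
    have := min_le_left (3 * R + c - 7 * (u 0 + u 1)) (3 * R + 3 * c - 9 * (u 0 + u 1))
    unfold C3
    linarith
  · rw [max_eq_left (by linarith)] at h1
    have := min_le_right (3 * R + c - 7 * (u 0 + u 1)) (3 * R + 3 * c - 9 * (u 0 + u 1))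
    unfold C3
    linarith

lemma Cm_pos {R c m : ℝ} (hm : 0 < m) (hR : 2 * c ≤ R) {u : Fin 2 → ℝ} (hu : u ∈ Vm R c m) :
    m < Cm R c m u := by
  refine lt_of_lt_of_le ?_ (Cm_ge hm u)
  obtain ⟨-, -, h3, h4⟩ := hu
  have h5 : 2 * m < C3 R c (u 0 + u 1) := by
    unfold C3
    refine lt_min ?_ ?_
    · linarith
    · linarith
  linarith

/-- **The model, from the strip map.** -/
theorem modelD_of_rows (HD : RowDat) (HS : RowStrip) : ModelD := by
  intro R c R' c' hc'0 hcc h2c hR'R h2c' η hη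
  obtain ⟨m, hm0, hm1, hm2, hm3, hm4⟩ : ∃ m : ℝ, 0 < m ∧ m ≤ c - c' ∧
      m ≤ (R + c) / 3 - (R' + c') / 3 ∧ m ≤ η ∧ m < c := by
    refine ⟨min (min (c - c') ((R + c) / 3 - (R' + c') / 3)) η, lt_min (lt_min ?_ ?_) hη,
      (min_le_left _ _).trans (min_le_left _ _), (min_le_left _ _).trans (min_le_right _ _),
      min_le_right _ _, ?_⟩
    · linarith
    · linarith
    · exact lt_of_le_of_lt ((min_le_left _ _).trans (min_le_left _ _)) (by linarith)
  refine ⟨Vm R c m, Cm R c m, fun u => Cm R c m u / 2, Vm_isOpen R c m, ?_, Cm_contDiff R c m,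
    ((Cm_contDiff R c m).div_const 2).contDiffOn, fun u _ => ?_, ?_⟩
  · rintro u ⟨h0, h1, h2, h3⟩
    refine ⟨by linarith, by linarith, by linarith, by linarith⟩
  · exact le_trans (by linarith) (Cm_ge hm0 u)
  · intro ε hε hε2
    obtain ⟨η', hη'⟩ : ∃ η' : ℝ, η' = min ε (m / 40) := ⟨_, rfl⟩
    have hη0 : 0 < η' := by rw [hη']; exact lt_min hε (by positivity)
    have hη1 : η' ≤ ε := by rw [hη']; exact min_le_left _ _
    have hη2 : η' ≤ m / 40 := by rw [hη']; exact min_le_right _ _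
    have hyp : Hyp R c m η' := ⟨hm0, hm4, h2c.le, hη0, hη2⟩
    obtain ⟨D⟩ := HD R c m η' hyp
    obtain ⟨g1, g2, g3, g4, g5⟩ := HS R c m η' D hyp
    have hsub : ∀ w : Fin 3 → ℂ, w ∈ StripD (Vm R c m) (Cm R c m)
        (fun u => Cm R c m u / 2) (m / 40) ε → w ∈ StripE R c m η' := by
      rintro w ⟨h1, h2, h3, h4⟩
      refine ⟨h1, ?_, fun hI => ?_⟩
      · rw [abs_lt]
        constructor <;> linarith
      · obtain ⟨h5, h6⟩ := h4 (H974.NearA_of_IntA hε.le hI)
        rw [abs_lt]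
        constructor <;> linarith
    have hS : StripSpecD (Vm R c m) (Cm R c m) (fun u => Cm R c m u / 2) (m / 40) ε
        (fun z : Fin 3 → ℂ => z ∈ openBall 3 R ∧ Real.pi * ‖z 0‖ ^ 2 < c) D.G0 := by
      refine ⟨fun w hw => g1 w (hsub w hw), fun w hw => g2 w (hsub w hw), fun w hw => ?_, ?_,
        fun w hw w' hw' h => g5 w (hsub w hw) w' (hsub w' hw') h⟩
      · obtain ⟨h1, h2⟩ := g3 w (hsub w hw)
        refine ⟨?_, h1⟩
        unfold openBall
        rw [Set.mem_setOf_eq, Fin.sum_univ_three]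
        unfold ar at h2
        linarith
      · intro w hw h1 h2
        exact g4 w hw h1 (H974.not_IntA hε.le h2)
    exact ⟨_, wrapSpecD hS (fun u hu => ⟨by linarith [Cm_pos hm0 h2c.le hu],
      by linarith [Cm_pos hm0 h2c.le hu]⟩) (by positivity) hε.le (Vm_isOpen R c m)
      ((Cm_contDiff R c m).div_const 2).continuous.continuousOn (Cm_contDiff R c m)⟩

/-- Conjecture A (sufficiency) for all `n ≥ 3`, from the rows of `H687.Defs`. -/
theorem conjA_of_rows (HD : RowDat) (HS : RowStrip) (n : ℕ) (hn : 3 ≤ n) : ConjA n :=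
  conjA_all_D (modelD_of_rows HD HS) n hn

end Vale.Agent.P209.H564
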