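import Vale.Agent.P209.Defs
import Vale.Agent.P209.MathlibUsed

/-!
# P209, H564: the chart of the complement of a hyperplane

`proj0 : ℂ^{n+1} ∖ {Z 0 = 0} → ℂ^n`, `Z ↦ (Z 1, …, Z n) * conj (Z 0) / ‖Z 0‖`, restricted to the sphere
`π ∑ ‖Z j‖² = R`, is the reduction map; it pulls back the standard form to the standard form
(restricted to the sphere) and its fibres are the orbits of the circle.
-/

open scoped ContDiff
open Complex

namespace Vale.Agent.P209.H564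

open Vale.Agent.P209

/-- the conjugate phase -/
noncomputable def cph (w : ℂ) : ℂ := (starRingEnd ℂ) w * ((‖w‖⁻¹ : ℝ) : ℂ)

lemma cph_norm {w : ℂ} (hw : w ≠ 0) : ‖cph w‖ = 1 := by
  unfold cph
  rw [norm_mul, RCLike.norm_conj, Complex.norm_real, norm_inv, norm_norm]
  exact mul_inv_cancel₀ (norm_ne_zero_iff.2 hw)

lemma cph_mul_self (w : ℂ) : cph w * w = (‖w‖ : ℂ) := by
  unfold cph
  by_cases hw : w = 0
  · subst hw; simp
  have h : (starRingEnd ℂ) w * w = ((‖w‖ ^ 2 : ℝ) : ℂ) := by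
    rw [mul_comm, Complex.mul_conj, Complex.normSq_eq_norm_sq]
  have hne : ‖w‖ ≠ 0 := norm_ne_zero_iff.2 hw
  calc (starRingEnd ℂ) w * ((‖w‖⁻¹ : ℝ) : ℂ) * w = ((starRingEnd ℂ) w * w) * ((‖w‖⁻¹ : ℝ) : ℂ) := by ring
    _ = (‖w‖ : ℂ) := by
      rw [h, ← Complex.ofReal_mul]
      congr 1
      field_simp

lemma cph_mul {c w : ℂ} (hc : ‖c‖ = 1) : cph (c * w) = (starRingEnd ℂ) c * cph w := by
  unfold cph
  rw [map_mul, norm_mul, hc, one_mul]
  ring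

/-- the reduction map -/
noncomputable def proj0 {n : ℕ} (Z : Fin (n + 1) → ℂ) : Fin n → ℂ := fun j => Z j.succ * cph (Z 0)

lemma proj0_smul {n : ℕ} {c : ℂ} (hc : ‖c‖ = 1) (Z : Fin (n + 1) → ℂ) :
    proj0 (fun j => c * Z j) = proj0 Z := by
  funext j
  unfold proj0
  rw [cph_mul hc]
  have h : c * (starRingEnd ℂ) c = 1 := by
    rw [Complex.mul_conj, Complex.normSq_eq_norm_sq, hc]; norm_num
  calc c * Z j.succ * ((starRingEnd ℂ) c * cph (Z 0)) = (c * (starRingEnd ℂ) c) * (Z j.succ * cph (Z 0)) := by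
        ring
    _ = Z j.succ * cph (Z 0) := by rw [h, one_mul]

lemma proj0_norm {n : ℕ} {Z : Fin (n + 1) → ℂ} (h0 : Z 0 ≠ 0) (j : Fin n) :
    ‖proj0 Z j‖ = ‖Z j.succ‖ := by
  unfold proj0
  rw [norm_mul, cph_norm h0, mul_one]

/-- the image lies in the open ball -/
lemma proj0_mem {n : ℕ} {R : ℝ} {Z : Fin (n + 1) → ℂ} (h0 : Z 0 ≠ 0)
    (hZ : Real.pi * ∑ j, ‖Z j‖ ^ 2 = R) : proj0 Z ∈ openBall n R := by
  have h1 : 0 < ‖Z 0‖ := norm_pos_iff.2 h0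
  have hpi := Real.pi_pos
  show Real.pi * ∑ j, ‖proj0 Z j‖ ^ 2 < R
  rw [← hZ, Fin.sum_univ_succ]
  simp only [proj0_norm h0]
  have : 0 < Real.pi * ‖Z 0‖ ^ 2 := by positivity
  linarith [mul_add Real.pi (‖Z 0‖ ^ 2) (∑ i : Fin n, ‖Z i.succ‖ ^ 2)]

/-- the fibres are the orbits of the circle -/
lemma proj0_inj {n : ℕ} {Z Z' : Fin (n + 1) → ℂ} (h0 : Z 0 ≠ 0) (h0' : Z' 0 ≠ 0)
    (hs : ∑ j, ‖Z j‖ ^ 2 = ∑ j, ‖Z' j‖ ^ 2) (h : proj0 Z = proj0 Z') :
    ∃ c : ℂ, ‖c‖ = 1 ∧ ∀ j, Z' j = c * Z j := by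
  have hn : ∀ j : Fin n, ‖Z j.succ‖ = ‖Z' j.succ‖ := fun j => by
    rw [← proj0_norm h0, ← proj0_norm h0', h]
  have h00 : ‖Z 0‖ = ‖Z' 0‖ := by
    have h1 : ‖Z 0‖ ^ 2 = ‖Z' 0‖ ^ 2 := by
      rw [Fin.sum_univ_succ, Fin.sum_univ_succ] at hs
      simp only [hn] at hs
      linarith
    exact (sq_eq_sq₀ (norm_nonneg _) (norm_nonneg _)).1 h1
  -- `c = conj (cph (Z' 0)) * cph (Z 0)`
  have hu : ∀ w : ℂ, w ≠ 0 → (starRingEnd ℂ) (cph w) * cph w = 1 := fun w hw => by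
    rw [mul_comm, Complex.mul_conj, Complex.normSq_eq_norm_sq, cph_norm hw]; norm_num
  refine ⟨(starRingEnd ℂ) (cph (Z' 0)) * cph (Z 0), ?_, ?_⟩
  · rw [norm_mul, RCLike.norm_conj, cph_norm h0, cph_norm h0', one_mul]
  · intro j
    refine Fin.cases ?_ (fun j => ?_) j
    · have h1 : cph (Z 0) * Z 0 = cph (Z' 0) * Z' 0 := by rw [cph_mul_self, cph_mul_self, h00]
      calc Z' 0 = ((starRingEnd ℂ) (cph (Z' 0)) * cph (Z' 0)) * Z' 0 := by rw [hu _ h0', one_mul]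
        _ = (starRingEnd ℂ) (cph (Z' 0)) * (cph (Z' 0) * Z' 0) := by ring
        _ = (starRingEnd ℂ) (cph (Z' 0)) * (cph (Z 0) * Z 0) := by rw [h1]
        _ = _ := by ring
    · have h1 : Z j.succ * cph (Z 0) = Z' j.succ * cph (Z' 0) := congrFun h j
      calc Z' j.succ = ((starRingEnd ℂ) (cph (Z' 0)) * cph (Z' 0)) * Z' j.succ := by
            rw [hu _ h0', one_mul]
        _ = (starRingEnd ℂ) (cph (Z' 0)) * (Z' j.succ * cph (Z' 0)) := by ring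
        _ = (starRingEnd ℂ) (cph (Z' 0)) * (Z j.succ * cph (Z 0)) := by rw [h1]
        _ = _ := by ring

lemma cph_contDiffAt {w : ℂ} (hw : w ≠ 0) : ContDiffAt ℝ ∞ cph w := by
  unfold cph
  refine ContDiffAt.mul (Complex.conjCLE.contDiff.contDiffAt) ?_
  refine Complex.ofRealCLM.contDiff.contDiffAt.comp w ?_
  exact (contDiffAt_norm ℝ hw).inv (norm_ne_zero_iff.2 hw)

lemma proj0_contDiffAt {n : ℕ} {Z : Fin (n + 1) → ℂ} (h0 : Z 0 ≠ 0) :
    ContDiffAt ℝ ∞ (proj0 (n := n)) Z := by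
  rw [contDiffAt_pi]
  intro j
  unfold proj0
  refine ContDiffAt.mul (contDiffAt_pi.1 contDiffAt_id j.succ) ?_
  exact (cph_contDiffAt h0).comp Z (contDiffAt_pi.1 contDiffAt_id 0)

/-- derivative of the conjugate phase: `V ↦ - i dα(V) cph w` -/
lemma cph_hasFDerivAt {w : ℂ} (hw : w ≠ 0) : ∃ L : ℂ →L[ℝ] ℂ, HasFDerivAt cph L w ∧
    ∀ V, L V = cph w * (((-(((starRingEnd ℂ) w * V).im) / ‖w‖ ^ 2 : ℝ) : ℂ) * I) := by
  have h1 : DifferentiableAt ℝ cph w := (cph_contDiffAt hw).differentiableAt (by simp)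
  refine ⟨fderiv ℝ cph w, h1.hasFDerivAt, ?_⟩
  have hne : ‖w‖ ≠ 0 := norm_ne_zero_iff.2 hw
  have hnorm : HasFDerivAt (fun z : ℂ => ‖z‖) (fderiv ℝ (fun z : ℂ => ‖z‖) w) w :=
    ((contDiffAt_norm ℝ hw (n := 1)).differentiableAt (by simp)).hasFDerivAt
  -- the derivative of the norm
  have hN : ∀ V, fderiv ℝ (fun z : ℂ => ‖z‖) w V = ((starRingEnd ℂ) w * V).re / ‖w‖ := by
    intro V
    have h2 := hnorm.pow 2
    have h3 : HasFDerivAt (fun z : ℂ => ‖z‖ ^ 2) (2 • (innerSL ℝ w)) w :=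
      (hasStrictFDerivAt_norm_sq w).hasFDerivAt
    have h4 := h2.unique h3
    have h5 := congrArg (fun L : ℂ →L[ℝ] ℝ => L V) h4
    simp only [ContinuousLinearMap.smul_apply, smul_eq_mul, innerSL_apply_apply, nsmul_eq_mul,
      Complex.inner] at h5
    rw [eq_div_iff hne]
    have h6 : (V * (starRingEnd ℂ) w).re = ((starRingEnd ℂ) w * V).re := by rw [mul_comm]
    push_cast at h5
    norm_num at h5
    simp only [Complex.mul_re, Complex.conj_re, Complex.conj_im] at h5 ⊢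
    linarith
  intro V
  have hinv : HasFDerivAt (fun z : ℂ => ‖z‖⁻¹) ((-(‖w‖ ^ 2)⁻¹) • fderiv ℝ (fun z : ℂ => ‖z‖) w) w :=
    (hasDerivAt_inv hne).comp_hasFDerivAt w hnorm
  have hof : HasFDerivAt (fun z : ℂ => ((‖z‖⁻¹ : ℝ) : ℂ))
      (Complex.ofRealCLM.comp ((-(‖w‖ ^ 2)⁻¹) • fderiv ℝ (fun z : ℂ => ‖z‖) w)) w :=
    Complex.ofRealCLM.hasFDerivAt.comp w hinv
  have hconj : HasFDerivAt (fun z : ℂ => (starRingEnd ℂ) z) (Complex.conjCLE : ℂ →L[ℝ] ℂ) w :=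
    Complex.conjCLE.hasFDerivAt
  have hm := hconj.mul hof
  have hfd : fderiv ℝ cph w = _ := HasFDerivAt.fderiv hm
  rw [hfd]
  simp only [ContinuousLinearMap.add_apply, ContinuousLinearMap.smul_apply,
    ContinuousLinearMap.comp_apply, smul_eq_mul, hN, Complex.ofRealCLM_apply,
    ContinuousLinearEquiv.coe_coe, Complex.conjCLE_apply]
  unfold cph
  obtain ⟨ρ, hρ⟩ : ∃ ρ : ℝ, ρ = ‖w‖ := ⟨_, rfl⟩
  obtain ⟨a, ha⟩ : ∃ a : ℝ, a = ((starRingEnd ℂ) w * V).re := ⟨_, rfl⟩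
  obtain ⟨b, hb⟩ : ∃ b : ℝ, b = ((starRingEnd ℂ) w * V).im := ⟨_, rfl⟩
  have hsq : (starRingEnd ℂ) w * w = ((ρ : ℂ)) ^ 2 := by
    rw [mul_comm, Complex.mul_conj, Complex.normSq_eq_norm_sq, hρ]; push_cast; ring
  have hab : (starRingEnd ℂ) w * V = (a : ℂ) + b * I := by
    rw [ha, hb]; exact (Complex.re_add_im _).symm
  have hab' : w * (starRingEnd ℂ) V = (a : ℂ) - b * I := by
    have := congrArg (starRingEnd ℂ) hab
    simp only [map_mul, map_add, Complex.conj_conj, Complex.conj_ofReal, Complex.conj_I] at this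
    rw [this]; ring
  have hρ0 : (ρ : ℂ) ≠ 0 := by rw [hρ]; exact_mod_cast hne
  have hV : (starRingEnd ℂ) V = (starRingEnd ℂ) w * ((a : ℂ) - b * I) / (ρ : ℂ) ^ 2 := by
    rw [eq_div_iff (pow_ne_zero 2 hρ0), ← hsq, ← hab']; ring
  rw [← ha, ← hb, ← hρ, hV]
  push_cast
  field_simp
  ring

/-- the standard form is the sum of the plane forms -/
lemma omega_eq_im {n : ℕ} (v w : Fin n → ℂ) : omega v w = ∑ j, ((starRingEnd ℂ) (v j) * w j).im := by
  unfold omega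
  refine Finset.sum_congr rfl fun j _ => ?_
  simp only [Complex.mul_im, Complex.conj_re, Complex.conj_im]
  ring

/-- the derivative of the reduction map -/
lemma proj0_fderiv {n : ℕ} {Z : Fin (n + 1) → ℂ} (h0 : Z 0 ≠ 0) (V : Fin (n + 1) → ℂ) (j : Fin n) :
    fderiv ℝ (proj0 (n := n)) Z V j = cph (Z 0) * (V j.succ -
      ((((starRingEnd ℂ) (Z 0) * V 0).im / ‖Z 0‖ ^ 2 : ℝ) : ℂ) * I * Z j.succ) := by
  obtain ⟨L, hL, hLV⟩ := cph_hasFDerivAt h0
  have hp : ∀ i : Fin (n + 1), HasFDerivAt (fun Z : Fin (n + 1) → ℂ => Z i)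
      (ContinuousLinearMap.proj (R := ℝ) (φ := fun _ : Fin (n + 1) => ℂ) i) Z := fun i =>
    hasFDerivAt_apply i Z
  have h1 : HasFDerivAt (fun Z : Fin (n + 1) → ℂ => cph (Z 0))
      (L.comp (ContinuousLinearMap.proj (R := ℝ) (φ := fun _ : Fin (n + 1) => ℂ) 0)) Z :=
    HasFDerivAt.comp (g := cph) Z hL (hp 0)
  have h2 : ∀ j : Fin n, HasFDerivAt (fun Z : Fin (n + 1) → ℂ => proj0 Z j) _ Z := fun j =>
    (hp j.succ).mul h1
  have h3 : fderiv ℝ (proj0 (n := n)) Z = _ := (hasFDerivAt_pi.2 h2).fderiv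
  rw [h3]
  simp only [ContinuousLinearMap.coe_pi', ContinuousLinearMap.add_apply,
    ContinuousLinearMap.smul_apply, ContinuousLinearMap.comp_apply, ContinuousLinearMap.proj_apply,
    smul_eq_mul, hLV]
  push_cast
  ring

/-- the pull back of the form under the reduction map, on vectors tangent to the sphere -/
lemma proj0_omega {n : ℕ} {Z : Fin (n + 1) → ℂ} (h0 : Z 0 ≠ 0) (V W : Fin (n + 1) → ℂ)
    (hV : ∑ j, ((starRingEnd ℂ) (Z j) * V j).re = 0) (hW : ∑ j, ((starRingEnd ℂ) (Z j) * W j).re = 0) :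
    omega (fderiv ℝ (proj0 (n := n)) Z V) (fderiv ℝ (proj0 (n := n)) Z W) = omega V W := by
  have hne : ‖Z 0‖ ≠ 0 := norm_ne_zero_iff.2 h0
  have hc1 : (starRingEnd ℂ) (cph (Z 0)) * cph (Z 0) = 1 := by
    rw [mul_comm, Complex.mul_conj, Complex.normSq_eq_norm_sq, cph_norm h0]; norm_num
  rw [omega_eq_im, omega_eq_im, Fin.sum_univ_succ]
  rw [Fin.sum_univ_succ] at hV hW
  simp only [proj0_fderiv h0]
  obtain ⟨a, ha⟩ : ∃ a : ℝ, a = ((starRingEnd ℂ) (Z 0) * V 0).im / ‖Z 0‖ ^ 2 := ⟨_, rfl⟩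
  obtain ⟨b, hb⟩ : ∃ b : ℝ, b = ((starRingEnd ℂ) (Z 0) * W 0).im / ‖Z 0‖ ^ 2 := ⟨_, rfl⟩
  rw [← ha, ← hb]
  have hterm : ∀ j : Fin n, ((starRingEnd ℂ) (cph (Z 0) * (V j.succ - (a : ℂ) * I * Z j.succ)) *
      (cph (Z 0) * (W j.succ - (b : ℂ) * I * Z j.succ))).im =
      ((starRingEnd ℂ) (V j.succ) * W j.succ).im - b * ((starRingEnd ℂ) (Z j.succ) * V j.succ).re
        + a * ((starRingEnd ℂ) (Z j.succ) * W j.succ).re := by
    intro j
    have h1 : (starRingEnd ℂ) (cph (Z 0) * (V j.succ - (a : ℂ) * I * Z j.succ)) *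
      (cph (Z 0) * (W j.succ - (b : ℂ) * I * Z j.succ)) =
      (starRingEnd ℂ) (V j.succ - (a : ℂ) * I * Z j.succ) * (W j.succ - (b : ℂ) * I * Z j.succ) := by
      rw [map_mul]
      calc (starRingEnd ℂ) (cph (Z 0)) * (starRingEnd ℂ) (V j.succ - (a : ℂ) * I * Z j.succ) *
            (cph (Z 0) * (W j.succ - (b : ℂ) * I * Z j.succ)) =
          ((starRingEnd ℂ) (cph (Z 0)) * cph (Z 0)) *
            ((starRingEnd ℂ) (V j.succ - (a : ℂ) * I * Z j.succ) *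
              (W j.succ - (b : ℂ) * I * Z j.succ)) := by ring
        _ = _ := by rw [hc1, one_mul]
    rw [h1]
    simp only [map_sub, map_mul, Complex.conj_ofReal, Complex.conj_I, Complex.mul_im,
      Complex.mul_re, Complex.sub_im, Complex.sub_re, Complex.conj_re, Complex.conj_im,
      Complex.ofReal_re, Complex.ofReal_im, Complex.I_re, Complex.I_im, Complex.neg_re,
      Complex.neg_im]
    ring
  simp only [hterm]
  rw [Finset.sum_add_distrib, Finset.sum_sub_distrib, ← Finset.mul_sum, ← Finset.mul_sum]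
  have hV' : ∑ j : Fin n, ((starRingEnd ℂ) (Z j.succ) * V j.succ).re =
      -((starRingEnd ℂ) (Z 0) * V 0).re := by linarith
  have hW' : ∑ j : Fin n, ((starRingEnd ℂ) (Z j.succ) * W j.succ).re =
      -((starRingEnd ℂ) (Z 0) * W 0).re := by linarith
  rw [hV', hW']
  have hkey : b * ((starRingEnd ℂ) (Z 0) * V 0).re - a * ((starRingEnd ℂ) (Z 0) * W 0).re =
      ((starRingEnd ℂ) (V 0) * W 0).im := by
    rw [ha, hb]
    have hn : ‖Z 0‖ ^ 2 = (Z 0).re ^ 2 + (Z 0).im ^ 2 := by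
      rw [← Complex.normSq_eq_norm_sq, Complex.normSq_apply]; ring
    have hn0 : (Z 0).re ^ 2 + (Z 0).im ^ 2 ≠ 0 := by rw [← hn]; positivity
    rw [hn]
    simp only [Complex.mul_im, Complex.mul_re, Complex.conj_re, Complex.conj_im]
    field_simp
    ring
  rw [← hkey]
  ring

/-- a map into a sphere has derivative tangent to the sphere -/
lemma tangent_of_const {E : Type*} [NormedAddCommGroup E] [NormedSpace ℝ E] {m : ℕ}
    {f : E → Fin m → ℂ} {x : E} {c : ℝ} (hf : DifferentiableAt ℝ f x)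
    (hc : ∀ᶠ y in nhds x, ∑ j, ‖f y j‖ ^ 2 = c) (v : E) :
    ∑ j, ((starRingEnd ℂ) (f x j) * fderiv ℝ f x v j).re = 0 := by
  have h1 : ∀ j, HasFDerivAt (fun y => f y j)
      ((ContinuousLinearMap.proj (R := ℝ) (φ := fun _ : Fin m => ℂ) j).comp (fderiv ℝ f x)) x :=
    fun j => hasFDerivAt_pi'.1 hf.hasFDerivAt j
  have h2a : ∀ j, HasFDerivAt (fun y => ‖f y j‖ ^ 2) ((2 • (innerSL ℝ (f x j))).comp
      ((ContinuousLinearMap.proj (R := ℝ) (φ := fun _ : Fin m => ℂ) j).comp (fderiv ℝ f x))) x :=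
    fun j => HasFDerivAt.comp (g := fun z : ℂ => ‖z‖ ^ 2) x
      (hasStrictFDerivAt_norm_sq (f x j)).hasFDerivAt (h1 j)
  have h2 : HasFDerivAt (fun y => ∑ j, ‖f y j‖ ^ 2) _ x :=
    HasFDerivAt.fun_sum (u := Finset.univ) fun j _ => h2a j
  have h3 : HasFDerivAt (fun y => ∑ j, ‖f y j‖ ^ 2) (0 : E →L[ℝ] ℝ) x :=
    (hasFDerivAt_const c x).congr_of_eventuallyEq hc
  have h4 := congrArg (fun L : E →L[ℝ] ℝ => L v) (h2.unique h3)
  simp only [ContinuousLinearMap.sum_apply, ContinuousLinearMap.comp_apply,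
    ContinuousLinearMap.smul_apply, innerSL_apply_apply, Complex.inner, nsmul_eq_mul,
    ContinuousLinearMap.proj_apply, ContinuousLinearMap.zero_apply] at h4
  have h5 : ∀ j, (fderiv ℝ f x v j * (starRingEnd ℂ) (f x j)).re =
      ((starRingEnd ℂ) (f x j) * fderiv ℝ f x v j).re := fun j => by rw [mul_comm]
  simp only [h5] at h4
  rw [← Finset.mul_sum] at h4
  push_cast at h4
  linarith

/-- composition of a symplectic map into the sphere with the reduction map -/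
lemma proj0_comp_omega {E : Type*} [NormedAddCommGroup E] [NormedSpace ℝ E] {n : ℕ}
    {f : E → Fin (n + 1) → ℂ} {x : E} {c : ℝ} (hf : DifferentiableAt ℝ f x)
    (hc : ∀ᶠ y in nhds x, ∑ j, ‖f y j‖ ^ 2 = c) (h0 : f x 0 ≠ 0) (v w : E) :
    omega (fderiv ℝ (fun y => proj0 (f y)) x v) (fderiv ℝ (fun y => proj0 (f y)) x w) =
      omega (fderiv ℝ f x v) (fderiv ℝ f x w) := by
  have h1 : DifferentiableAt ℝ (proj0 (n := n)) (f x) :=
    (proj0_contDiffAt h0).differentiableAt (by simp)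
  have h2 : fderiv ℝ (fun y => proj0 (f y)) x = (fderiv ℝ (proj0 (n := n)) (f x)).comp (fderiv ℝ f x) :=
    fderiv_comp x h1 hf
  rw [h2, ContinuousLinearMap.comp_apply, ContinuousLinearMap.comp_apply]
  exact proj0_omega h0 _ _ (tangent_of_const hf hc v) (tangent_of_const hf hc w)

/-- the unitary change of coordinates in the slots `0, 2` -/
noncomputable def uniL (k : ℕ) : (Fin (k + 4) → ℂ) →L[ℝ] (Fin (k + 4) → ℂ) :=
  ContinuousLinearMap.pi fun j =>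
    if j = 0 then ((Real.sqrt 2)⁻¹ : ℝ) • (ContinuousLinearMap.proj 0 +
      (I : ℂ) • (ContinuousLinearMap.proj 2 : (Fin (k + 4) → ℂ) →L[ℝ] ℂ))
    else if j = 2 then ((Real.sqrt 2)⁻¹ : ℝ) • ((I : ℂ) • (ContinuousLinearMap.proj 0 :
      (Fin (k + 4) → ℂ) →L[ℝ] ℂ) + ContinuousLinearMap.proj 2)
    else ContinuousLinearMap.proj j

lemma uniL_zero (k : ℕ) (Z : Fin (k + 4) → ℂ) :
    uniL k Z 0 = (((Real.sqrt 2)⁻¹ : ℝ) : ℂ) * (Z 0 + I * Z 2) := by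
  unfold uniL
  simp
  ring

lemma val_two' (k : ℕ) : ((2 : Fin (k + 4)) : ℕ) = 2 := by
  show 2 % (k + 4) = 2
  exact Nat.mod_eq_of_lt (by omega)

lemma two_ne_zero' (k : ℕ) : (2 : Fin (k + 4)) ≠ 0 := by
  intro h
  have := congrArg Fin.val h
  rw [val_two'] at this
  simp at this

lemma uniL_two (k : ℕ) (Z : Fin (k + 4) → ℂ) :
    uniL k Z 2 = (((Real.sqrt 2)⁻¹ : ℝ) : ℂ) * (I * Z 0 + Z 2) := by
  unfold uniL
  simp [two_ne_zero' k]
  ring

lemma uniL_of_ne (k : ℕ) (Z : Fin (k + 4) → ℂ) {j : Fin (k + 4)} (h0 : j ≠ 0) (h2 : j ≠ 2) :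
    uniL k Z j = Z j := by
  unfold uniL
  simp [h0, h2]

/-- splitting a sum over the slots -/
lemma sum_split (k : ℕ) (F : Fin (k + 4) → ℝ) :
    ∑ j, F j = F 0 + F 1 + F 2 + ∑ j : Fin (k + 1), F j.succ.succ.succ := by
  rw [Fin.sum_univ_succ, Fin.sum_univ_succ, Fin.sum_univ_succ]
  have h1 : F (Fin.succ (0 : Fin (k + 3))) = F 1 := by congr 1
  have h2 : F (Fin.succ (Fin.succ (0 : Fin (k + 2)))) = F 2 := by congr 1
  rw [h1, h2]
  ring

lemma s3_ne_zero (k : ℕ) (j : Fin (k + 1)) : (j.succ.succ.succ : Fin (k + 4)) ≠ 0 :=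
  Fin.succ_ne_zero _

lemma s3_ne_two (k : ℕ) (j : Fin (k + 1)) : (j.succ.succ.succ : Fin (k + 4)) ≠ 2 := by
  intro h
  have := congrArg Fin.val h
  rw [val_two'] at this
  simp only [Fin.val_succ] at this
  omega

lemma one_ne_two' (k : ℕ) : (1 : Fin (k + 4)) ≠ 2 := by
  intro h
  have := congrArg Fin.val h
  rw [val_two'] at this
  simp at this

lemma one_ne_zero' (k : ℕ) : (1 : Fin (k + 4)) ≠ 0 := by
  intro h
  have := congrArg Fin.val h
  simp at this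

lemma sqrt2_sq : ((Real.sqrt 2)⁻¹ : ℝ) ^ 2 = 1 / 2 := by
  rw [inv_pow, Real.sq_sqrt (by norm_num)]; norm_num

lemma uniL_normSq (k : ℕ) (Z : Fin (k + 4) → ℂ) :
    ∑ j, ‖uniL k Z j‖ ^ 2 = ∑ j, ‖Z j‖ ^ 2 := by
  rw [sum_split, sum_split, uniL_zero, uniL_two, uniL_of_ne k Z (one_ne_zero' k) (one_ne_two' k)]
  simp only [uniL_of_ne k Z (s3_ne_zero k _) (s3_ne_two k _)]
  have hs := sqrt2_sq
  have h : ‖(((Real.sqrt 2)⁻¹ : ℝ) : ℂ) * (Z 0 + I * Z 2)‖ ^ 2 +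
      ‖(((Real.sqrt 2)⁻¹ : ℝ) : ℂ) * (I * Z 0 + Z 2)‖ ^ 2 = ‖Z 0‖ ^ 2 + ‖Z 2‖ ^ 2 := by
    rw [norm_mul, norm_mul, mul_pow, mul_pow, Complex.norm_real, Real.norm_eq_abs, sq_abs, hs,
      ← Complex.normSq_eq_norm_sq, ← Complex.normSq_eq_norm_sq, ← Complex.normSq_eq_norm_sq,
      ← Complex.normSq_eq_norm_sq]
    simp only [Complex.normSq_apply, Complex.add_re, Complex.add_im, Complex.mul_re,
      Complex.mul_im, Complex.I_re, Complex.I_im]
    ring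
  linarith

lemma uniL_omega (k : ℕ) (V W : Fin (k + 4) → ℂ) : omega (uniL k V) (uniL k W) = omega V W := by
  unfold omega
  rw [sum_split, sum_split, uniL_zero, uniL_two, uniL_zero, uniL_two,
    uniL_of_ne k V (one_ne_zero' k) (one_ne_two' k), uniL_of_ne k W (one_ne_zero' k) (one_ne_two' k)]
  simp only [uniL_of_ne k V (s3_ne_zero k _) (s3_ne_two k _),
    uniL_of_ne k W (s3_ne_zero k _) (s3_ne_two k _)]
  have hs := sqrt2_sq
  simp only [Complex.add_re, Complex.add_im, Complex.mul_re,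
      Complex.mul_im, Complex.I_re, Complex.I_im, Complex.ofReal_re, Complex.ofReal_im]
  obtain ⟨s, hs'⟩ : ∃ s : ℝ, s = (Real.sqrt 2)⁻¹ := ⟨_, rfl⟩
  rw [← hs'] at hs ⊢
  have e : (2 : ℝ) * s ^ 2 = 1 := by rw [hs]; norm_num
  linear_combination ((V 0).re * (W 0).im - (V 0).im * (W 0).re + (V 2).re * (W 2).im -
    (V 2).im * (W 2).re) * e

lemma uniL_smul (k : ℕ) (c : ℂ) (Z : Fin (k + 4) → ℂ) :
    uniL k (fun j => c * Z j) = fun j => c * uniL k Z j := by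
  funext j
  by_cases h0 : j = 0
  · subst h0; rw [uniL_zero, uniL_zero]; ring
  by_cases h2 : j = 2
  · subst h2; rw [uniL_two, uniL_two]; ring
  rw [uniL_of_ne k _ h0 h2, uniL_of_ne k _ h0 h2]

lemma uniL_inj (k : ℕ) {Z Z' : Fin (k + 4) → ℂ} (h : uniL k Z = uniL k Z') : Z = Z' := by
  have h1 : uniL k (Z - Z') = 0 := by rw [map_sub, h, sub_self]
  have h2 := uniL_normSq k (Z - Z')
  rw [h1] at h2
  simp only [Pi.zero_apply, norm_zero, ne_eq, OfNat.ofNat_ne_zero, not_false_eq_true, zero_pow,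
    Finset.sum_const_zero] at h2
  have h3 : ∀ j, ‖(Z - Z') j‖ ^ 2 = 0 := fun j =>
    (Finset.sum_eq_zero_iff_of_nonneg (fun i _ => by positivity)).1 h2.symm j (Finset.mem_univ j)
  funext j
  have := norm_eq_zero.1 (pow_eq_zero_iff (two_ne_zero)|>.1 (h3 j))
  exact sub_eq_zero.1 this

/-- the linear form defining the hyperplane `H'` -/
noncomputable def hyp {k : ℕ} (Z : Fin (k + 4) → ℂ) : ℂ := Z 0 + I * Z 2

/-- the chart of the complement of the hyperplane `H' = {Z_0 + i Z_2 = 0}` -/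
noncomputable def chart (k : ℕ) (Z : Fin (k + 4) → ℂ) : Fin (k + 3) → ℂ := proj0 (uniL k Z)

lemma uniL_zero_ne {k : ℕ} {Z : Fin (k + 4) → ℂ} (h : hyp Z ≠ 0) : uniL k Z 0 ≠ 0 := by
  rw [uniL_zero]
  refine mul_ne_zero ?_ h
  have : (Real.sqrt 2)⁻¹ ≠ 0 := by positivity
  exact_mod_cast this

theorem chart_mem {k : ℕ} {R : ℝ} {Z : Fin (k + 4) → ℂ} (h : hyp Z ≠ 0)
    (hZ : Real.pi * ∑ j, ‖Z j‖ ^ 2 = R) : chart k Z ∈ openBall (k + 3) R :=
  proj0_mem (uniL_zero_ne h) (by rw [uniL_normSq]; exact hZ)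

theorem chart_inj {k : ℕ} {Z Z' : Fin (k + 4) → ℂ} (h : hyp Z ≠ 0) (h' : hyp Z' ≠ 0)
    (hs : ∑ j, ‖Z j‖ ^ 2 = ∑ j, ‖Z' j‖ ^ 2) (hc : chart k Z = chart k Z') :
    ∃ c : ℂ, ‖c‖ = 1 ∧ ∀ j, Z' j = c * Z j := by
  obtain ⟨c, hc1, hc2⟩ := proj0_inj (uniL_zero_ne h) (uniL_zero_ne h')
    (by rw [uniL_normSq, uniL_normSq]; exact hs) hc
  refine ⟨c, hc1, ?_⟩
  have h1 : uniL k Z' = uniL k (fun j => c * Z j) := by
    rw [uniL_smul]; funext j; exact hc2 j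
  exact fun j => congrFun (uniL_inj k h1) j

theorem chart_contDiffAt {k : ℕ} {Z : Fin (k + 4) → ℂ} (h : hyp Z ≠ 0) :
    ContDiffAt ℝ ∞ (chart k) Z :=
  (proj0_contDiffAt (uniL_zero_ne h)).comp Z (uniL k).contDiff.contDiffAt

/-- a symplectic map into the sphere followed by the chart is symplectic -/
theorem chart_comp_omega {E : Type*} [NormedAddCommGroup E] [NormedSpace ℝ E] {k : ℕ}
    {f : E → Fin (k + 4) → ℂ} {x : E} {c : ℝ} (hf : DifferentiableAt ℝ f x)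
    (hc : ∀ᶠ y in nhds x, ∑ j, ‖f y j‖ ^ 2 = c) (h0 : hyp (f x) ≠ 0) (v w : E) :
    omega (fderiv ℝ (fun y => chart k (f y)) x v) (fderiv ℝ (fun y => chart k (f y)) x w) =
      omega (fderiv ℝ f x v) (fderiv ℝ f x w) := by
  have h1 : DifferentiableAt ℝ (fun y => uniL k (f y)) x :=
    (uniL k).differentiableAt.comp x hf
  have h2 := proj0_comp_omega (f := fun y => uniL k (f y)) h1
    (hc.mono fun y hy => by rw [uniL_normSq]; exact hy) (uniL_zero_ne h0) v w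
  have h3 : fderiv ℝ (fun y => uniL k (f y)) x = (uniL k).comp (fderiv ℝ f x) :=
    ((uniL k).hasFDerivAt.comp x hf.hasFDerivAt).fderiv
  rw [h3] at h2
  simp only [ContinuousLinearMap.comp_apply, uniL_omega] at h2
  exact h2

end Vale.Agent.P209.H564
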