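import Vale.Agent.P209.Bdl.B1
import Vale.Agent.P209.H564.Chart

/-!
# P209, H564: the big ball around a vertex, off the hyperplane at infinity
-/

namespace Vale.Agent.P209.H564

open Vale.Agent.P209
open scoped ContDiff
open Complex

/-- the lift of the ball around the vertex `i` to the sphere -/
noncomputable def Qm {n : ℕ} (R : ℝ) (i : Fin (n + 1)) (y : Fin n → ℂ) : Fin (n + 1) → ℂ :=
  i.insertNth (α := fun _ => ℂ) ((Real.sqrt (R / Real.pi - ∑ j, ‖y j‖ ^ 2) : ℝ) : ℂ) y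

lemma Qm_same {n : ℕ} (R : ℝ) (i : Fin (n + 1)) (y : Fin n → ℂ) :
    Qm R i y i = ((Real.sqrt (R / Real.pi - ∑ j, ‖y j‖ ^ 2) : ℝ) : ℂ) :=
  Fin.insertNth_apply_same _ _ _

lemma Qm_succAbove {n : ℕ} (R : ℝ) (i : Fin (n + 1)) (y : Fin n → ℂ) (j : Fin n) :
    Qm R i y (i.succAbove j) = y j :=
  Fin.insertNth_apply_succAbove _ _ _ _

lemma Qm_zero {n : ℕ} (R : ℝ) (j : Fin (n + 1)) (y : Fin (n + 1) → ℂ) :
    Qm R j.succ y 0 = y 0 := by
  have h : (j.succ : Fin (n + 2)).succAbove 0 = 0 := Fin.succAbove_ne_zero_zero (Fin.succ_ne_zero j)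
  have h2 := Qm_succAbove R j.succ y 0
  rw [h] at h2
  exact h2

lemma pos_of_mem {n : ℕ} {R : ℝ} {y : Fin n → ℂ} (hy : y ∈ openBall n R) :
    0 < R / Real.pi - ∑ j, ‖y j‖ ^ 2 := by
  have h1 : Real.pi * ∑ j, ‖y j‖ ^ 2 < R := hy
  have hpi := Real.pi_pos
  have h2 : ∑ j, ‖y j‖ ^ 2 < R / Real.pi := by
    rw [lt_div_iff₀ hpi]; linarith
  linarith

lemma Qm_sphere {n : ℕ} {R : ℝ} (i : Fin (n + 1)) {y : Fin n → ℂ} (hy : y ∈ openBall n R) :
    ∑ j, ‖Qm R i y j‖ ^ 2 = R / Real.pi := by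
  rw [Fin.sum_univ_succAbove _ i, Qm_same]
  simp only [Qm_succAbove]
  rw [Complex.norm_real, Real.norm_eq_abs, sq_abs, Real.sq_sqrt (pos_of_mem hy).le]
  ring

lemma Qm_contDiffAt {n : ℕ} {R : ℝ} (i : Fin (n + 1)) {y : Fin n → ℂ} (hy : y ∈ openBall n R) :
    ContDiffAt ℝ ∞ (Qm R i) y := by
  rw [contDiffAt_pi]
  intro j
  refine Fin.succAboveCases i ?_ (fun j => ?_) j
  · simp only [Qm_same]
    refine Complex.ofRealCLM.contDiff.contDiffAt.comp y ?_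
    refine ContDiffAt.sqrt ?_ (pos_of_mem hy).ne'
    refine contDiffAt_const.sub ?_
    refine ContDiffAt.sum fun j _ => ?_
    exact ((contDiff_norm_sq ℝ).comp (contDiff_apply ℝ ℂ j)).contDiffAt
  · simp only [Qm_succAbove]
    exact (contDiff_apply ℝ ℂ j).contDiffAt

lemma Qm_fderiv_succAbove {n : ℕ} {R : ℝ} (i : Fin (n + 1)) {y : Fin n → ℂ}
    (hy : y ∈ openBall n R) (v : Fin n → ℂ) (j : Fin n) :
    fderiv ℝ (Qm R i) y v (i.succAbove j) = v j := by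
  have h1 : DifferentiableAt ℝ (Qm R i) y := (Qm_contDiffAt i hy).differentiableAt (by simp)
  have h2 := hasFDerivAt_pi'.1 h1.hasFDerivAt (i.succAbove j)
  have h3 : HasFDerivAt (fun y : Fin n → ℂ => Qm R i y (i.succAbove j))
      (ContinuousLinearMap.proj (R := ℝ) (φ := fun _ : Fin n => ℂ) j) y := by
    simp only [Qm_succAbove]
    exact hasFDerivAt_apply j y
  exact congrArg (fun L : (Fin n → ℂ) →L[ℝ] ℂ => L v) (h2.unique h3)

lemma Qm_fderiv_same {n : ℕ} {R : ℝ} (i : Fin (n + 1)) {y : Fin n → ℂ}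
    (hy : y ∈ openBall n R) (v : Fin n → ℂ) :
    (fderiv ℝ (Qm R i) y v i).im = 0 := by
  have h1 : DifferentiableAt ℝ (Qm R i) y := (Qm_contDiffAt i hy).differentiableAt (by simp)
  have h2 := hasFDerivAt_pi'.1 h1.hasFDerivAt i
  have h4 : DifferentiableAt ℝ (fun y : Fin n → ℂ => Real.sqrt (R / Real.pi - ∑ j, ‖y j‖ ^ 2)) y := by
    refine DifferentiableAt.sqrt ?_ (pos_of_mem hy).ne'
    refine (differentiableAt_const _).sub ?_
    refine DifferentiableAt.fun_sum fun j _ => ?_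
    exact ((contDiff_norm_sq ℝ (n := 1)).comp (contDiff_apply ℝ ℂ j)).contDiffAt.differentiableAt
      (by simp)
  have h3 : HasFDerivAt (fun y : Fin n → ℂ => Qm R i y i)
      (Complex.ofRealCLM.comp (fderiv ℝ (fun y : Fin n → ℂ =>
        Real.sqrt (R / Real.pi - ∑ j, ‖y j‖ ^ 2)) y)) y := by
    simp only [Qm_same]
    exact Complex.ofRealCLM.hasFDerivAt.comp y h4.hasFDerivAt
  have h5 : fderiv ℝ (Qm R i) y v i = _ :=
    congrArg (fun L : (Fin n → ℂ) →L[ℝ] ℂ => L v) (h2.unique h3)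
  rw [h5]
  simp

lemma Qm_omega {n : ℕ} {R : ℝ} (i : Fin (n + 1)) {y : Fin n → ℂ}
    (hy : y ∈ openBall n R) (v w : Fin n → ℂ) :
    omega (fderiv ℝ (Qm R i) y v) (fderiv ℝ (Qm R i) y w) = omega v w := by
  unfold omega
  rw [Fin.sum_univ_succAbove _ i, Qm_fderiv_same i hy, Qm_fderiv_same i hy]
  simp only [Qm_fderiv_succAbove i hy]
  ring

/-- a plane map in the slot `0` -/
noncomputable def em0 {n : ℕ} (τ : ℂ → ℂ) (z : Fin (n + 1) → ℂ) : Fin (n + 1) → ℂ :=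
  fun j => if j = 0 then τ (z 0) else z j

lemma em0_zero {n : ℕ} (τ : ℂ → ℂ) (z : Fin (n + 1) → ℂ) : em0 τ z 0 = τ (z 0) := if_pos rfl

lemma em0_succ {n : ℕ} (τ : ℂ → ℂ) (z : Fin (n + 1) → ℂ) (j : Fin n) :
    em0 τ z j.succ = z j.succ := if_neg (Fin.succ_ne_zero j)

lemma em0_contDiff {n : ℕ} {τ : ℂ → ℂ} (hτ : Sympl1 τ) : ContDiff ℝ ∞ (em0 (n := n) τ) := by
  rw [contDiff_pi]
  intro j
  refine Fin.cases ?_ (fun j => ?_) j
  · simp only [em0_zero]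
    exact hτ.smooth.comp (contDiff_apply ℝ ℂ 0)
  · simp only [em0_succ]
    exact contDiff_apply ℝ ℂ j.succ

lemma em0_omega {n : ℕ} {τ : ℂ → ℂ} (hτ : Sympl1 τ) (z v w : Fin (n + 1) → ℂ) :
    omega (fderiv ℝ (em0 τ) z v) (fderiv ℝ (em0 τ) z w) = omega v w := by
  have h1 : DifferentiableAt ℝ (em0 (n := n) τ) z :=
    (em0_contDiff hτ).contDiffAt.differentiableAt (by simp)
  have h2 := hasFDerivAt_pi'.1 h1.hasFDerivAt
  have h3 : HasFDerivAt (fun z : Fin (n + 1) → ℂ => em0 τ z 0) ((fderiv ℝ τ (z 0)).comp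
      (ContinuousLinearMap.proj (R := ℝ) (φ := fun _ : Fin (n + 1) => ℂ) 0)) z := by
    simp only [em0_zero]
    exact HasFDerivAt.comp (g := τ) z
      ((hτ.smooth.differentiable (by simp)) (z 0)).hasFDerivAt (hasFDerivAt_apply 0 z)
  have h4 : ∀ j : Fin n, HasFDerivAt (fun z : Fin (n + 1) → ℂ => em0 τ z j.succ)
      (ContinuousLinearMap.proj (R := ℝ) (φ := fun _ : Fin (n + 1) => ℂ) j.succ) z := by
    intro j
    simp only [em0_succ]
    exact hasFDerivAt_apply j.succ z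
  have h5 : ∀ v, fderiv ℝ (em0 τ) z v 0 = fderiv ℝ τ (z 0) (v 0) := fun v =>
    congrArg (fun L : (Fin (n + 1) → ℂ) →L[ℝ] ℂ => L v) ((h2 0).unique h3)
  have h6 : ∀ v (j : Fin n), fderiv ℝ (em0 τ) z v j.succ = v j.succ := fun v j =>
    congrArg (fun L : (Fin (n + 1) → ℂ) →L[ℝ] ℂ => L v) ((h2 j.succ).unique (h4 j))
  have h7 := hτ.sympl (z 0) (v 0) (w 0)
  unfold om1 at h7
  unfold omega
  rw [Fin.sum_univ_succ, Fin.sum_univ_succ]
  simp only [h5, h6]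
  rw [h7]

/-- The big ball: a ball of capacity `r0` embeds into the part of the open ball near the sphere
which corresponds to a neighbourhood of a vertex at infinity. -/
theorem big_ball {m : ℕ} {R r0 ε : ℝ} (hr0 : 0 < r0) (hε : 0 < ε) (hR : r0 + ε < R)
    (j : Fin (m + 1)) :
    ∃ F0 : (Fin (m + 1) → ℂ) → (Fin (m + 1) → ℂ), IsSymplecticEmbedding r0 F0 ∧
      ∀ z ∈ closedBall (m + 1) r0, F0 z ∈ openBall (m + 1) R ∧
        R - r0 - ε < Real.pi * ‖F0 z j‖ ^ 2 := by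
  have hpi := Real.pi_pos
  obtain ⟨ρ, hρ⟩ : ∃ ρ : ℝ, ρ = Real.sqrt ((r0 + ε / 2) / Real.pi) := ⟨_, rfl⟩
  have hρ0 : 0 ≤ ρ := by rw [hρ]; exact Real.sqrt_nonneg _
  have hρ2 : Real.pi * ρ ^ 2 = r0 + ε / 2 := by
    rw [hρ, Real.sq_sqrt (by positivity)]; field_simp
  -- the small number
  obtain ⟨η, hη0, hη⟩ : ∃ η : ℝ, 0 < η ∧ Real.pi * (2 * η * ρ + η ^ 2) ≤ ε / 2 := by
    refine ⟨min 1 (ε / (2 * Real.pi * (2 * ρ + 1))), by positivity, ?_⟩
    have hη1 : min 1 (ε / (2 * Real.pi * (2 * ρ + 1))) ≤ 1 := min_le_left _ _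
    have hη2 : min 1 (ε / (2 * Real.pi * (2 * ρ + 1))) ≤ ε / (2 * Real.pi * (2 * ρ + 1)) :=
      min_le_right _ _
    have hη3 : 0 < min 1 (ε / (2 * Real.pi * (2 * ρ + 1))) := by positivity
    obtain ⟨η, hη⟩ : ∃ η : ℝ, η = min 1 (ε / (2 * Real.pi * (2 * ρ + 1))) := ⟨_, rfl⟩
    rw [← hη] at hη1 hη2 hη3 ⊢
    rw [le_div_iff₀ (by positivity)] at hη2
    have h1 : η ^ 2 ≤ η := by nlinarith
    calc Real.pi * (2 * η * ρ + η ^ 2) ≤ Real.pi * (2 * η * ρ + η) := by gcongr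
      _ = η * (2 * Real.pi * (2 * ρ + 1)) / 2 := by ring
      _ ≤ ε / 2 := by linarith
  obtain ⟨τ, hτ, hτ1, hτ2⟩ := exists_off_origin ρ η hη0
  obtain ⟨U, hU⟩ : ∃ U : Set (Fin (m + 1) → ℂ), U = openBall (m + 1) (r0 + ε / 2) := ⟨_, rfl⟩
  have hUo : IsOpen U := by
    rw [hU]
    refine isOpen_lt ?_ continuous_const
    fun_prop
  have hz0 : ∀ z ∈ U, ‖z 0‖ ≤ ρ := by
    intro z hz
    rw [hU] at hz
    have h1 : Real.pi * ∑ j, ‖z j‖ ^ 2 < r0 + ε / 2 := hz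
    rw [← hρ2] at h1
    have h2 : ∑ j, ‖z j‖ ^ 2 < ρ ^ 2 := lt_of_mul_lt_mul_left h1 hpi.le
    have h3 : ‖z 0‖ ^ 2 ≤ ∑ j, ‖z j‖ ^ 2 :=
      Finset.single_le_sum (f := fun j => ‖z j‖ ^ 2) (fun j _ => by positivity) (Finset.mem_univ 0)
    exact (sq_le_sq₀ (norm_nonneg _) hρ0).1 (by linarith)
  have hem : ∀ z ∈ U, em0 τ z ∈ openBall (m + 1) (r0 + ε) := by
    intro z hz
    have hzρ := hz0 z hz
    rw [hU] at hz
    have h1 : Real.pi * ∑ j, ‖z j‖ ^ 2 < r0 + ε / 2 := hz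
    show Real.pi * ∑ j, ‖em0 τ z j‖ ^ 2 < r0 + ε
    rw [Fin.sum_univ_succ] at h1 ⊢
    rw [em0_zero]
    simp only [em0_succ]
    have h2 : ‖τ (z 0)‖ ^ 2 ≤ ‖z 0‖ ^ 2 + (2 * η * ρ + η ^ 2) := by
      calc ‖τ (z 0)‖ ^ 2 ≤ (‖z 0‖ + η) ^ 2 := by
            gcongr
            exact hτ1 _
        _ = ‖z 0‖ ^ 2 + (2 * η * ‖z 0‖ + η ^ 2) := by ring
        _ ≤ _ := by gcongr
    have h3 : Real.pi * ‖τ (z 0)‖ ^ 2 ≤ Real.pi * ‖z 0‖ ^ 2 + Real.pi * (2 * η * ρ + η ^ 2) := by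
      rw [← mul_add]
      exact mul_le_mul_of_nonneg_left h2 hpi.le
    rw [mul_add] at h1 ⊢
    linarith
  have hsubR : ∀ y ∈ openBall (m + 1) (r0 + ε), y ∈ openBall (m + 1) R := fun y hy =>
    lt_trans (show Real.pi * ∑ j, ‖y j‖ ^ 2 < r0 + ε from hy) hR
  have hne : ∀ z ∈ U, Qm R j.succ (em0 τ z) 0 ≠ 0 := by
    intro z hz
    rw [Qm_zero, em0_zero]
    exact hτ2 _ (hz0 z hz)
  have hsm : ∀ z ∈ U, ContDiffAt ℝ ∞ (fun z => Qm R j.succ (em0 τ z)) z := fun z hz =>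
    (Qm_contDiffAt j.succ (hsubR _ (hem z hz))).comp z (em0_contDiff hτ).contDiffAt
  have hcd : ContDiffOn ℝ ∞ (fun z => proj0 (Qm R j.succ (em0 τ z))) U := fun z hz =>
    (ContDiffAt.comp (g := proj0 (n := m + 1)) z (proj0_contDiffAt (hne z hz))
      (hsm z hz)).contDiffWithinAt
  have hs : ∀ z ∈ U, ∀ v w : Fin (m + 1) → ℂ,
      omega (fderiv ℝ (fun z => proj0 (Qm R j.succ (em0 τ z))) z v)
        (fderiv ℝ (fun z => proj0 (Qm R j.succ (em0 τ z))) z w) = omega v w := by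
    intro z hz v w
    have hd : DifferentiableAt ℝ (fun z => Qm R j.succ (em0 τ z)) z :=
      (hsm z hz).differentiableAt (by simp)
    have hsph : ∀ᶠ y in nhds z, ∑ i, ‖Qm R j.succ (em0 τ y) i‖ ^ 2 = R / Real.pi := by
      filter_upwards [hUo.mem_nhds hz] with y hy
      exact Qm_sphere j.succ (hsubR _ (hem y hy))
    rw [proj0_comp_omega hd hsph (hne z hz)]
    have h2 : fderiv ℝ (fun z => Qm R j.succ (em0 τ z)) z =
        (fderiv ℝ (Qm R j.succ) (em0 τ z)).comp (fderiv ℝ (em0 τ) z) :=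
      fderiv_comp z ((Qm_contDiffAt j.succ (hsubR _ (hem z hz))).differentiableAt (by simp))
        ((em0_contDiff hτ).contDiffAt.differentiableAt (by simp))
    rw [h2]
    simp only [ContinuousLinearMap.comp_apply]
    rw [Qm_omega j.succ (hsubR _ (hem z hz)), em0_omega hτ]
  have hsq : ∀ z ∈ U, (0 : ℝ) < R / Real.pi - ∑ i, ‖em0 τ z i‖ ^ 2 := fun z hz =>
    pos_of_mem (hsubR _ (hem z hz))
  have hinj : Set.InjOn (fun z => proj0 (Qm R j.succ (em0 τ z))) U := by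
    intro z hz z' hz' h
    obtain ⟨c, hc1, hc2⟩ := proj0_inj (hne z hz) (hne z' hz')
      (by rw [Qm_sphere j.succ (hsubR _ (hem z hz)), Qm_sphere j.succ (hsubR _ (hem z' hz'))]) h
    have h1 := hc2 j.succ
    rw [Qm_same, Qm_same] at h1
    have hp := Real.sqrt_pos.2 (hsq z hz)
    have hp' := Real.sqrt_pos.2 (hsq z' hz')
    obtain ⟨a, ha⟩ : ∃ a : ℝ, a = Real.sqrt (R / Real.pi - ∑ i, ‖em0 τ z i‖ ^ 2) := ⟨_, rfl⟩
    obtain ⟨b, hb⟩ : ∃ b : ℝ, b = Real.sqrt (R / Real.pi - ∑ i, ‖em0 τ z' i‖ ^ 2) := ⟨_, rfl⟩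
    rw [← ha] at hp h1
    rw [← hb] at hp' h1
    have h2 : c = 1 := by
      have h3 : ‖(b : ℂ)‖ = ‖c‖ * ‖(a : ℂ)‖ := by rw [← norm_mul, ← h1]
      rw [hc1, one_mul, Complex.norm_real, Complex.norm_real, Real.norm_eq_abs, Real.norm_eq_abs,
        abs_of_pos hp, abs_of_pos hp'] at h3
      rw [h3] at h1
      have ha0 : (a : ℂ) ≠ 0 := by exact_mod_cast hp.ne'
      exact (mul_right_cancel₀ ha0 (by rw [one_mul]; exact h1)).symm
    have h4 : em0 τ z' = em0 τ z := by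
      funext i
      have h5 := hc2 (j.succ.succAbove i)
      rw [Qm_succAbove, Qm_succAbove, h2, one_mul] at h5
      exact h5
    funext i
    refine Fin.cases ?_ (fun i => ?_) i
    · have h6 := congrFun h4 0
      rw [em0_zero, em0_zero] at h6
      exact (hτ.inj h6).symm
    · have h6 := congrFun h4 i.succ
      rw [em0_succ, em0_succ] at h6
      exact h6.symm
  have hBU : closedBall (m + 1) r0 ⊆ U := by
    intro z hz
    rw [hU]
    have h1 : Real.pi * ∑ j, ‖z j‖ ^ 2 ≤ r0 := hz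
    show Real.pi * ∑ j, ‖z j‖ ^ 2 < r0 + ε / 2
    linarith
  refine ⟨fun z => proj0 (Qm R j.succ (em0 τ z)),
    ⟨U, hUo, hBU, hcd, isOpenEmbedding_of_sympl hUo hcd hinj hs, hs⟩, ?_⟩
  intro z hz
  have hzU := hBU hz
  refine ⟨proj0_mem (hne z hzU) ?_, ?_⟩
  · rw [Qm_sphere j.succ (hsubR _ (hem z hzU))]; field_simp
  · rw [proj0_norm (hne z hzU), Qm_same, Complex.norm_real, Real.norm_eq_abs, sq_abs,
      Real.sq_sqrt (hsq z hzU).le]
    have h1 : Real.pi * ∑ i, ‖em0 τ z i‖ ^ 2 < r0 + ε := hem z hzU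
    have h2 : Real.pi * (R / Real.pi - ∑ i, ‖em0 τ z i‖ ^ 2) =
        R - Real.pi * ∑ i, ‖em0 τ z i‖ ^ 2 := by field_simp
    rw [h2]
    linarith

end Vale.Agent.P209.H564
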