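import Vale.Agent.P209.H564.RowMI

/-!
# P209, REM, row MS: areas and angle of the middle chart
-/

set_option linter.all false

namespace Vale.Agent.P209.H564

open Vale.Agent.P209 H684 H578 H721 H974 H686 H687
open Vale.Agent.P209.Strong hiding chi
open scoped ContDiff

theorem gau_area {R : ℝ} {X : Fin 3 → ℂ} (h : X 2 ≠ 0)
    (h0 : 0 ≤ R - ar (X 0) - ar (X 1) - ar (X 2)) :
    ar (gau R X 0) = ar (X 0) ∧ ar (gau R X 1) = ar (X 1) ∧
      ar (gau R X 2) = R - ar (X 0) - ar (X 1) - ar (X 2) := by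
  have hn : ‖(starRingEnd ℂ) (uph (X 2))‖ = 1 := by rw [RCLike.norm_conj, ph_norm h]
  exact ⟨ar_mul_of_norm_one' hn, ar_mul_of_norm_one' hn,
    (ar_mul_of_norm_one' hn).trans (sqrt_real_ar h0)⟩

/-- the areas of the middle chart: `x_0`, `x_1`, `x_3` -/
theorem cM_ar {R c m η : ℝ} (D : Dat R c m η) (hH : Hyp R c m η) {v : Fin 3 → ℂ}
    (h : PAr D v) (hk : kap R c v < 0) (hk2 : kah R c v < 0) :
    ar (D.cM v 0) = ar (YY D v 2) ∧
    ar (D.cM v 1) = (R - ar (YY D v 1) - ar (YY D v 2)) / 2 + qst D v ∧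
    ar (D.cM v 2) = (R - ar (YY D v 1) - ar (YY D v 2)) / 2 - qst D v := by
  obtain ⟨b0, b1, b2⟩ := ph0_ar D hH h hk
  have h3 := x3_pos D hH h hk2
  obtain ⟨c0, c1, c2⟩ := gau_area (R := R) (X := ph0 (WW D v))
    (ar_pos.1 (by rw [b2]; exact h.pos)) (by rw [b0, b1, b2]; linarith)
  rw [cM_eq]
  refine ⟨c0.trans b0, c1.trans b1, ?_⟩
  rw [c2, b0, b1, b2]
  ring

theorem qim_cM {R c m η : ℝ} (D : Dat R c m η) (hH : Hyp R c m η) {v : Fin 3 → ℂ}
    (h : PAr D v) (hk : kap R c v < 0) (hk2 : kah R c v < 0) : qim (D.cM v) = qst D v := by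
  obtain ⟨-, c1, c2⟩ := cM_ar D hH h hk hk2
  unfold qim
  rw [c1, c2]
  ring

theorem aM_val {R c m η : ℝ} (D : Dat R c m η) {v : Fin 3 → ℂ} (h : PAr D v) :
    D.aM v = (v 0).im *
      (1 + deriv D.t (qst D v) * (c + 3 * ar (YY D v 1) - ar (YY D v 2))) := by
  have h1 := (gq_Fp D h).2
  have h2 : D.aM v = (YY D v 0).im / Fp (gq R c D.qs) (qq (YY D v)) := clift_im _ _
  have h0 : Fp (gq R c D.qs) (qq (YY D v)) ≠ 0 := by
    intro h0
    rw [h0, zero_mul] at h1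
    exact zero_ne_one h1
  rw [h2, YY_im, div_eq_iff h0, mul_assoc]
  rw [mul_comm] at h1
  rw [h1, mul_one]

/-- **Row MS, areas and angle.** -/
theorem rowMS_areas {R c m η : ℝ} (D : Dat R c m η) (hH : Hyp R c m η) {v : Fin 3 → ℂ}
    (hv : v ∈ H687.DM R c m) :
    Tgt R c (D.cM v) ∧ lim R (D.cM v) < (R - 2 * c) / 3 ∧
    (∃ Λ, 0 < Λ ∧ Λ ≤ Lam c m (uu v) ∧ qim (D.cM v) = D.qs ((v 0).re, Λ) ∧
      D.aM v = (v 0).im * (1 + deriv D.t (qim (D.cM v)) * Λ)) := by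
  have hm := hH.1
  obtain ⟨hu, hk, hk2⟩ := hv
  have h := pAr D hH hu
  have hkn : kap R c v < 0 := by linarith
  have hkh : kah R c v < 0 := by linarith
  obtain ⟨c0, c1, c2⟩ := cM_ar D hH h hkn hkh
  have hq := qim_cM D hH h hkn hkh
  obtain ⟨-, -, h3, h4⟩ := hu
  have h3' : ar (v 1) < c - m := h3
  have h4' : ar (v 1) + ar (v 2) < (R + c) / 3 - m := h4
  have hd := h.diff
  have hs := h.sum
  have hp := h.pos
  have hl := h.lam
  have a1 := h.a_gt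
  have a2 := h.a_le
  have hε := D.hε1
  have hε' := D.hε1'
  have p1 := ar_nonneg (v 1)
  have p2 := ar_nonneg (v 2)
  have p3 := ar_nonneg (YY D v 2)
  obtain ⟨L1, L2⟩ := chi_nonneg_aux (d := m / 100) (t := ar (v 1) + ar (v 2) - c) (by positivity)
  have hLam : Lam c m (uu v) = 3 * ar (v 1) + ar (v 2) +
    2 * H684.chi (m / 100) (ar (v 1) + ar (v 2) - c) + m / 2 := rfl
  refine ⟨⟨?_, ?_⟩, ?_, c + 3 * ar (YY D v 1) - ar (YY D v 2), ?_, ?_, hq, ?_⟩
  · rw [c0]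
    rcases le_total 0 (ar (D.τ2 (v 2)) + ar (v 1) - c) with hh | hh
    · rw [abs_of_nonneg hh] at hs; linarith
    · rw [abs_of_nonpos hh] at hs; linarith
  · rw [c0, c1, c2]; linarith
  · unfold lim
    rw [c0, c1, c2]
    linarith
  · linarith
  · rw [hLam]
    rcases le_total 0 (ar (D.τ2 (v 2)) + ar (v 1) - c) with hh | hh
    · rw [abs_of_nonneg hh] at hs; linarith
    · rw [abs_of_nonpos hh] at hs; linarith
  · rw [hq]
    exact aM_val D h

end Vale.Agent.P209.H564
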