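import Vale.Agent.P209.H564.Adapt
import Vale.Agent.P209.H564.MSar
import Vale.Agent.P209.H710.Nec.Main
import Vale.Agent.P209.H687.Strip3
import Vale.Agent.P209.H974.StripInj
import Vale.Agent.P209.H684.RowDat
import Vale.Agent.P209.H686.RowLS
import Vale.Agent.P209.H58.Rem.RowLA
import Vale.Agent.P209.H520.RowGC

/-!
# P209, H564: the Siegel-Yao Conjecture A, from the rows of `H687.Defs`
-/

namespace Vale.Agent.P209.H564

open Vale.Agent.P209 Vale.Agent.P209.H687

/-- Conjecture A, literally, from the two main rows. -/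
theorem conjecture_of_rows (HD : RowDat) (HS : RowStrip) :
    ∀ n k : ℕ, 3 ≤ n → 1 ≤ k → ∀ (R : ℝ) (r : Fin k → ℝ), 0 < R → (∀ i, 0 < r i) →
      (Packs (openBall n R) r ↔
        ∑ i, r i ^ n < R ^ n ∧ ∀ i j, i < j → r i + r j < R) := by
  intro n k hn _ R r hR h0
  exact ⟨fun h => H710.Nec.necessity n k (by omega) R r hR h0 h,
    fun h => conjA_of_rows HD HS n hn k R r hR h0 h.1 h.2⟩

/-- the strip map, from the three rows which are not yet proved in their own files -/
theorem rowStrip_of_three (hMS : RowMS) (hML : RowML) (hTQ : RowTQ) : RowStrip :=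
  rowStrip_of H686.rowLS H58.Rem.rowLA hMS hML H520.rowGC hTQ
    (fun R c m η D hH => H974.SI.strip_inj D H686.rowLS H58.Rem.rowLA hMS hML rowMI H520.rowGC hH
      fun w hw h1 h2 => H687.G0_seam D hTQ hH hw h1 h2)

theorem conjecture_of_three (hMS : RowMS) (hML : RowML) (hTQ : RowTQ) :
    ∀ n k : ℕ, 3 ≤ n → 1 ≤ k → ∀ (R : ℝ) (r : Fin k → ℝ), 0 < R → (∀ i, 0 < r i) →
      (Packs (openBall n R) r ↔
        ∑ i, r i ^ n < R ^ n ∧ ∀ i j, i < j → r i + r j < R) :=
  conjecture_of_rows H684.rowDat (rowStrip_of_three hMS hML hTQ)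

end Vale.Agent.P209.H564
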