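import Vale.Agent.P209.H564.Conj
import Vale.Agent.P209.H39.RowMS
import Vale.Agent.P209.H684.RowML
import Vale.Agent.P209.H721.RowTQ

/-!
# P209, H564: the Siegel-Yao Conjecture A
-/

namespace Vale.Agent.P209.H564

open Vale.Agent.P209

/-- **The Siegel-Yao Conjecture A.** -/
theorem conjecture_A :
    ∀ n k : ℕ, 3 ≤ n → 1 ≤ k → ∀ (R : ℝ) (r : Fin k → ℝ), 0 < R → (∀ i, 0 < r i) →
      (Packs (openBall n R) r ↔
        ∑ i, r i ^ n < R ^ n ∧ ∀ i j, i < j → r i + r j < R) :=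
  conjecture_of_three H39.rowMS H684.Mid.rowML H721.rowTQ

end Vale.Agent.P209.H564
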