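import Vale.Agent.P209.H564.FinCore
import Vale.Agent.P209.H564.BigBall
import Vale.Agent.P209.H578.Engine
import Vale.Agent.P209.H856.Shake5
import Vale.Agent.P209.H753.Smooth
import Vale.Agent.P209.H519.StateEx
import Vale.Agent.P209.H412.ConjDefs

/-!
# P209, H564: final assembly
-/

namespace Vale.Agent.P209.H564

open Vale.Agent.P209 Vale.Agent.P209.H578 Vale.Agent.P209.H684
open Vale.Agent.P209.H856 (psiL DomOK State)
open Vale.Agent.P209.H753 (absv)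
open scoped ContDiff

variable {k : ℕ}

/-- the moduli of the single coordinates are not changed by `Ph` -/
lemma Ph_single {R c : ℝ} {V : Set (Fin (k + 2) → ℝ)} {gt : (Fin (k + 2) → ℝ) → ℝ}
    {Gam : (Fin (k + 3) → ℂ) → (Fin (k + 4) → ℂ)} {T : (Fin (k + 3) → ℂ) → (Fin (k + 3) → ℂ)}
    (hc : 0 < c) (hG : GamSpec R c Gam) (hT : ThetaSpec R V gt T)
    {w : Fin (k + 3) → ℂ} (hw : w ∈ Wd R c V gt) (j : Fin k) :
    Real.pi * ‖Ph Gam T w j.succ.succ.succ‖ ^ 2 = uu w j.succ.succ := by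
  have h1 : ‖Ph Gam T w j.succ.succ.succ‖ = ‖Gam (T w) j.succ.succ.succ.succ‖ := by
    unfold Ph chart
    rw [proj0_norm (uniL_zero_ne (Ph_hyp hc hG hT hw))]
    rw [uniL_of_ne k _ (Fin.succ_ne_zero _)]
    intro h
    have := congrArg Fin.val h
    rw [val_two'] at this
    simp only [Fin.val_succ] at this
    omega
  rw [h1, hG.single _ (by rw [Lf_T hT]; exact hw.2.1)]
  exact congrFun (hT.uu_eq w) j.succ.succ

/-- From a sub-fixed state to disjoint embeddings into the ball. -/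
theorem model_emb {K : ℕ} {R c : ℝ} (hc : 0 < c)
    (HG : ∃ Gam : (Fin (k + 3) → ℂ) → (Fin (k + 4) → ℂ), GamSpec R c Gam)
    (HT : ∀ (V : Set (Fin (k + 2) → ℝ)) (gt : (Fin (k + 2) → ℝ) → ℝ), IsOpen V →
      ContDiffOn ℝ ∞ gt V → ∃ T : (Fin (k + 3) → ℂ) → (Fin (k + 3) → ℂ), ThetaSpec R V gt T)
    {Om : Set (Fin (k + 2) → ℝ)} {B κ : ℝ} (hD : DomOK Om B κ)
    (ho : ∃ O : Set (Fin (k + 2) → ℝ), IsOpen O ∧ Om = O ∩ {u | ∀ a, 0 ≤ u a})
    (hL : ∀ u ∈ Om, c < LL R u)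
    {Λ M : ℝ} {g : (Fin (k + 2) → ℝ) → ℝ} (hg : State Om Λ M g) (hΛ : 0 ≤ Λ)
    (r r' : Fin K → ℝ) (h0 : ∀ i, 0 < r i) (h1 : ∀ i, r i < r' i)
    (h2 : ∀ i, ∀ u : Fin (k + 2) → ℝ, (∀ a, 0 ≤ u a) → ∑ a, u a ≤ r' i → u ∈ Om)
    {η : ℝ} (hη : 0 < η)
    (hpsi : ∀ u ∈ Om, g u + η ≤ psiL Om (List.ofFn r') g u + 4 * LL R u) :
    ∃ F : Fin K → (Fin (k + 3) → ℂ) → (Fin (k + 3) → ℂ),
      (∀ i, IsSymplecticEmbedding (r i) (F i)) ∧
      (∀ i, F i '' closedBall (k + 3) (r i) ⊆ openBall (k + 3) R) ∧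
      (Pairwise fun i j => Disjoint (F i '' closedBall (k + 3) (r i))
        (F j '' closedBall (k + 3) (r j))) ∧
      (∀ i, ∀ z ∈ closedBall (k + 3) (r i), ∃ u ∈ Om, ∀ j : Fin k,
        Real.pi * ‖F i z j.succ.succ.succ‖ ^ 2 = u j.succ.succ) := by
  obtain ⟨Gam, hG⟩ := HG
  -- intermediate radii
  obtain ⟨r1, hr1⟩ : ∃ r1 : Fin K → ℝ, r1 = fun i => (r i + r' i) / 2 := ⟨_, rfl⟩
  have ha : ∀ i, r i < r1 i := fun i => by rw [hr1]; show r i < (r i + r' i) / 2; linarith [h1 i]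
  have hb : ∀ i, r1 i < r' i := fun i => by rw [hr1]; show (r i + r' i) / 2 < r' i; linarith [h1 i]
  have hPS := engine hD ho hg hΛ K r1 r' (fun i => (h0 i).trans (ha i)) hb h2
  -- the smooth wall
  obtain ⟨O, hO, hOm⟩ := ho
  have hVo : IsOpen {x : Fin (k + 2) → ℝ | absv x ∈ Om} := by
    have h3 : {x : Fin (k + 2) → ℝ | absv x ∈ Om} = absv ⁻¹' O := by
      ext x
      rw [hOm]
      exact ⟨fun h => h.1, fun h => ⟨h, fun a => abs_nonneg _⟩⟩
    rw [h3]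
    exact hO.preimage H753.continuous_absv
  obtain ⟨gt, hgt, hgt2⟩ := H753.exists_smooth_orthant hVo (hg.cls.continuousOn hD hΛ)
    (half_pos hη)
  obtain ⟨T, hT⟩ := HT _ gt hVo hgt
  obtain ⟨F, hF1, hF2, hF3⟩ := hPS (η / 2) (half_pos hη)
  have hW : ∀ i, ∀ z ∈ closedBall (k + 3) (r1 i), F i z ∈ Wd R c {x | absv x ∈ Om} gt := by
    intro i z hz
    obtain ⟨a1, a2, a3⟩ := hF2 i z hz
    have hnn := hD.nonneg _ a1
    obtain ⟨b1, b2⟩ := hgt2 _ a1 hnn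
    have b3 := hpsi _ a1
    refine ⟨?_, ?_, ?_, ?_⟩
    · show absv (uu (F i z)) ∈ Om
      rw [H753.absv_of_nonneg hnn]; exact a1
    · rw [Lf_eq]; exact hL _ a1
    · rw [Lf_eq]; linarith
    · linarith
  obtain ⟨c1, c2, c3⟩ := core_emb hc hVo hG hT ha hF1 hW hF3
  refine ⟨fun i z => Ph Gam T (F i z), c1, c2, c3, ?_⟩
  intro i z hz
  have hz1 : z ∈ closedBall (k + 3) (r1 i) :=
    le_trans (show Real.pi * ∑ j, ‖z j‖ ^ 2 ≤ r i from hz) (ha i).le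
  exact ⟨uu (F i z), (hF2 i z hz1).1, fun j => Ph_single hc hG hT (hW i z hz1) j⟩

/-! ### parameters -/

/-- the weights of the model -/
noncomputable def cv (k : ℕ) (a : Fin (k + 2)) : ℝ := ((cf (k := k) a.succ : ℤ) : ℝ)

lemma cv_zero : cv k 0 = 2 := by
  unfold cv cf
  simp

lemma cv_one : cv k (Fin.succ 0) = 2 := by
  unfold cv cf
  have h0 : (Fin.succ (Fin.succ 0) : Fin (k + 3)) ≠ 0 := Fin.succ_ne_zero _
  have h2 : (Fin.succ (Fin.succ 0) : Fin (k + 3)) = 2 := by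
    apply Fin.ext
    show 2 = 2 % (k + 3)
    exact (Nat.mod_eq_of_lt (by omega)).symm
  rw [if_neg h0, if_pos (Or.inr h2)]
  norm_num

lemma cv_single (j : Fin k) : cv k j.succ.succ = 1 := by
  unfold cv cf
  have h0 : (j.succ.succ.succ : Fin (k + 3)) ≠ 0 := Fin.succ_ne_zero _
  have h1 : (j.succ.succ.succ : Fin (k + 3)) ≠ 1 := by
    intro h
    have h2 := congrArg Fin.val h
    simp at h2
  have h2 : (j.succ.succ.succ : Fin (k + 3)) ≠ 2 := by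
    intro h
    have h2 := congrArg Fin.val h
    have h3 : ((2 : Fin (k + 3)) : ℕ) = 2 := by
      show 2 % (k + 3) = 2
      exact Nat.mod_eq_of_lt (by omega)
    rw [h3] at h2
    simp only [Fin.val_succ] at h2
    omega
  rw [if_neg h0, if_neg (not_or.2 ⟨h1, h2⟩)]
  norm_num

lemma cv_pos (a : Fin (k + 2)) : 0 < cv k a := by
  refine Fin.cases ?_ (fun a => ?_) a
  · rw [cv_zero]; norm_num
  · refine Fin.cases ?_ (fun a => ?_) a
    · rw [cv_one]; norm_num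
    · rw [cv_single]; norm_num

lemma cv_le (a : Fin (k + 2)) : cv k a ≤ 2 := by
  refine Fin.cases ?_ (fun a => ?_) a
  · rw [cv_zero]
  · refine Fin.cases ?_ (fun a => ?_) a
    · rw [cv_one]
    · rw [cv_single]; norm_num

lemma cv_prod : ∏ a, cv k a = 4 := by
  rw [Fin.prod_univ_succ, Fin.prod_univ_succ, cv_zero, cv_one]
  simp only [cv_single, Finset.prod_const_one]
  norm_num

lemma LL_eq (R : ℝ) (u : Fin (k + 2) → ℝ) : LL R u = R - ∑ a, cv k a * u a := rfl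

/-- choice of the scaling factor -/
lemma exists_scale {K : ℕ} {n : ℕ} {R : ℝ} (t : Fin K → ℝ) (ht : ∀ i, t i < R)
    (S : ℝ) (hS : S < R ^ n) : ∃ s : ℝ, 1 < s ∧ (∀ i, s ^ 3 * t i < R) ∧ s ^ (3 * n) * S < R ^ n := by
  have h1 : ∀ i, ∀ᶠ s : ℝ in nhds 1, s ^ 3 * t i < R := by
    intro i
    have hc : Continuous fun s : ℝ => s ^ 3 * t i := by fun_prop
    exact hc.continuousAt.eventually_lt continuousAt_const (by simpa using ht i)
  have h2 : ∀ᶠ s : ℝ in nhds 1, s ^ (3 * n) * S < R ^ n := by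
    have hc : Continuous fun s : ℝ => s ^ (3 * n) * S := by fun_prop
    exact hc.continuousAt.eventually_lt continuousAt_const (by simpa using hS)
  have h3 := ((Filter.eventually_all.2 h1).and h2).filter_mono
    (nhdsWithin_le_nhds (a := (1 : ℝ)) (s := Set.Ioi 1))
  obtain ⟨s, ⟨ha, hb⟩, hs⟩ := (h3.and self_mem_nhdsWithin).exists
  exact ⟨s, hs, ha, hb⟩

/-- the model theorem for small balls -/
def StateA : Prop := ∀ (d : ℕ) (c : Fin d → ℝ), (∀ a, 0 < c a) → ∀ (R : ℝ), 0 < R →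
  ∀ rs : List ℝ, (∀ r ∈ rs, 0 < r ∧ ∀ a, c a * r < R) → ∀ κ : ℝ,
  κ * R ^ (d + 1) = (∏ a, c a) * (rs.map fun r => r ^ (d + 1)).sum → ∀ ε : ℝ, 0 < ε →
  ∃ Λ M g, 0 ≤ Λ ∧ State (H519.Omc c R) Λ M g ∧ ∀ u ∈ H519.Omc c R,
    g u - ε ≤ psiL (H519.Omc c R) rs g u + κ * (R - ∑ a, c a * u a)

/-- the model theorem with one big ball at a single coordinate -/
def StateB : Prop := ∀ (m : ℕ) (c : Fin (m + 1) → ℝ) (i : Fin (m + 1)), (∀ a, 0 < c a) → c i = 1 →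
  ∀ (R r0 : ℝ), 0 ≤ r0 → r0 < R →
  ∀ rs : List ℝ, (∀ r ∈ rs, 0 < r ∧ r < R - r0 ∧ ∀ a, c a * r < R) → ∀ κ : ℝ,
  κ * (R ^ (m + 2) - r0 ^ (m + 2)) = (∏ a, c a) * (rs.map fun r => r ^ (m + 2)).sum →
  ∀ ε : ℝ, 0 < ε →
  ∃ Λ M g, 0 ≤ Λ ∧ State (H519.Omi i c R (R - r0)) Λ M g ∧ ∀ u ∈ H519.Omi i c R (R - r0),
    g u - ε ≤ psiL (H519.Omi i c R (R - r0)) rs g u + κ * (R - ∑ a, c a * u a)

/-- the domains are good -/
def DomA : Prop := ∀ (d : ℕ) (c : Fin d → ℝ), (∀ a, 0 < c a) → ∀ (R : ℝ), 0 < R →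
  ∃ B κ, DomOK (H519.Omc c R) B κ

def DomB : Prop := ∀ (d : ℕ) (c : Fin d → ℝ) (i : Fin d), (∀ a, 0 < c a) → ∀ (R ρ : ℝ), 0 < R →
  0 < ρ → ∃ B κ, DomOK (H519.Omi i c R ρ) B κ

lemma relopen_A {d : ℕ} (c : Fin d → ℝ) (R : ℝ) :
    ∃ O : Set (Fin d → ℝ), IsOpen O ∧ H519.Omc c R = O ∩ {u | ∀ a, 0 ≤ u a} := by
  refine ⟨{u | ∑ a, c a * u a < R}, ?_, ?_⟩
  · refine isOpen_lt ?_ continuous_const
    fun_prop
  · ext u
    exact and_comm

lemma relopen_B {d : ℕ} (i : Fin d) (c : Fin d → ℝ) (R ρ : ℝ) :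
    ∃ O : Set (Fin d → ℝ), IsOpen O ∧ H519.Omi i c R ρ = O ∩ {u | ∀ a, 0 ≤ u a} := by
  refine ⟨{u | ∑ a, c a * u a < R} ∩ {u | u i < ρ}, ?_, ?_⟩
  · refine IsOpen.inter (isOpen_lt ?_ continuous_const) (isOpen_lt ?_ continuous_const)
    · fun_prop
    · fun_prop
  · ext u
    exact ⟨fun h => ⟨⟨h.2.1, h.2.2⟩, h.1⟩, fun h => ⟨h.2, h.1.1, h.1.2⟩⟩

lemma list_sum_ofFn {K : ℕ} (r : Fin K → ℝ) (n : ℕ) :
    ((List.ofFn r).map fun x => x ^ n).sum = ∑ i, r i ^ n := by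
  rw [List.map_ofFn, List.sum_ofFn]
  rfl

/-- **Small balls.** -/
theorem fin_A (HG : ∀ (R c : ℝ), 0 < c → c < R →
      ∃ Gam : (Fin (k + 3) → ℂ) → (Fin (k + 4) → ℂ), GamSpec R c Gam)
    (HT : ∀ (R : ℝ) (V : Set (Fin (k + 2) → ℝ)) (gt : (Fin (k + 2) → ℝ) → ℝ), IsOpen V →
      ContDiffOn ℝ ∞ gt V → ∃ T : (Fin (k + 3) → ℂ) → (Fin (k + 3) → ℂ), ThetaSpec R V gt T)
    (HS : StateA) (HD : DomA) {K : ℕ} {R : ℝ} (hR : 0 < R) (r : Fin K → ℝ) (h0 : ∀ i, 0 < r i)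
    (h1 : ∀ i, 2 * r i < R) (h2 : ∑ i, r i ^ (k + 3) < R ^ (k + 3)) :
    Packs (openBall (k + 3) R) r := by
  obtain ⟨s, hs1, hs2, hs3⟩ := exists_scale (fun i => 2 * r i) h1 _ h2
  have hs0 : 0 < s := by linarith
  obtain ⟨R', hR'⟩ : ∃ R' : ℝ, R' = R / s := ⟨_, rfl⟩
  have hRs : R = R' * s := by rw [hR']; field_simp
  have hR'0 : 0 < R' := by rw [hR']; positivity
  have hR'R : R' < R := by rw [hRs]; nlinarith
  obtain ⟨r', hr'⟩ : ∃ r' : Fin K → ℝ, r' = fun i => s ^ 2 * r i := ⟨_, rfl⟩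
  have hr'i : ∀ i, r' i = s ^ 2 * r i := fun i => by rw [hr']
  have hr'0 : ∀ i, 0 < r' i := fun i => by rw [hr'i]; have := h0 i; positivity
  have hs2' : 1 < s ^ 2 := by nlinarith
  have hrr' : ∀ i, r i < r' i := fun i => by rw [hr'i]; have := h0 i; nlinarith
  have hr'R : ∀ i, 2 * r' i < R' := fun i => by
    rw [hr'i]
    have h3 := hs2 i
    rw [hRs] at h3
    have h4 : s ^ 3 * (2 * r i) = (2 * (s ^ 2 * r i)) * s := by ring
    rw [h4] at h3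
    exact lt_of_mul_lt_mul_right h3 hs0.le
  have hvol : ∑ i, r' i ^ (k + 3) < R' ^ (k + 3) := by
    have h3 : ∑ i, r' i ^ (k + 3) = s ^ (2 * (k + 3)) * ∑ i, r i ^ (k + 3) := by
      rw [Finset.mul_sum]
      refine Finset.sum_congr rfl fun i _ => ?_
      rw [hr'i, mul_pow, ← pow_mul]
    rw [h3]
    have h4 : s ^ (3 * (k + 3)) * ∑ i, r i ^ (k + 3) < (R' * s) ^ (k + 3) := by
      rw [← hRs]; exact hs3
    have h5 : s ^ (3 * (k + 3)) * ∑ i, r i ^ (k + 3) =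
        (s ^ (2 * (k + 3)) * ∑ i, r i ^ (k + 3)) * s ^ (k + 3) := by ring
    rw [h5, mul_pow] at h4
    exact lt_of_mul_lt_mul_right h4 (by positivity)
  obtain ⟨κ, hκ⟩ : ∃ κ : ℝ, κ = 4 * (∑ i, r' i ^ (k + 3)) / R' ^ (k + 3) := ⟨_, rfl⟩
  have hκ1 : κ * R' ^ (k + 2 + 1) = (∏ a, cv k a) *
      ((List.ofFn r').map fun x => x ^ (k + 2 + 1)).sum := by
    rw [cv_prod, list_sum_ofFn, hκ]
    field_simp
  have hκ4 : κ ≤ 4 := by
    rw [hκ, div_le_iff₀ (by positivity)]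
    linarith
  have hrs : ∀ x ∈ List.ofFn r', 0 < x ∧ ∀ a, cv k a * x < R' := by
    intro x hx
    rw [List.mem_ofFn] at hx
    obtain ⟨i, rfl⟩ := hx
    refine ⟨hr'0 i, fun a => lt_of_le_of_lt ?_ (hr'R i)⟩
    exact mul_le_mul_of_nonneg_right (cv_le a) (hr'0 i).le
  obtain ⟨Λ, M, g, hΛ, hg, hpsi⟩ := HS (k + 2) (cv k) cv_pos R' hR'0 (List.ofFn r') hrs κ hκ1
    (R - R') (by linarith)
  obtain ⟨B, κ', hDom⟩ := HD (k + 2) (cv k) cv_pos R' hR'0
  obtain ⟨F, F1, F2, F3, -⟩ := model_emb (R := R) (c := R - R') (by linarith)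
    (HG R (R - R') (by linarith) (by linarith)) (HT R) hDom (relopen_A _ _)
    (fun u hu => by rw [LL_eq]; linarith [hu.2]) hg hΛ r r' h0 hrr'
    (fun i u hu hsum => by
      refine ⟨hu, ?_⟩
      calc ∑ a, cv k a * u a ≤ ∑ a, 2 * u a :=
            Finset.sum_le_sum fun a _ => mul_le_mul_of_nonneg_right (cv_le a) (hu a)
        _ = 2 * ∑ a, u a := by rw [Finset.mul_sum]
        _ ≤ 2 * r' i := by linarith
        _ < R' := hr'R i)
    (η := 3 * (R - R')) (by linarith)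
    (fun u hu => by
      have h3 := hpsi u hu
      rw [LL_eq]
      have h4 : 0 ≤ R' - ∑ a, cv k a * u a := by linarith [hu.2]
      have h5 : κ * (R' - ∑ a, cv k a * u a) ≤ 4 * (R' - ∑ a, cv k a * u a) :=
        mul_le_mul_of_nonneg_right hκ4 h4
      linarith)
  exact ⟨F, F1, F2, F3⟩

/-- adding one ball -/
theorem packs_insert {n K : ℕ} {S : Set (Fin n → ℂ)} {r : Fin (K + 1) → ℝ} (i0 : Fin (K + 1))
    {F0 : (Fin n → ℂ) → (Fin n → ℂ)} {F : Fin K → (Fin n → ℂ) → (Fin n → ℂ)}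
    (h0 : IsSymplecticEmbedding (r i0) F0)
    (h : ∀ i, IsSymplecticEmbedding (r (i0.succAbove i)) (F i))
    (hS0 : F0 '' closedBall n (r i0) ⊆ S)
    (hS : ∀ i, F i '' closedBall n (r (i0.succAbove i)) ⊆ S)
    (hd0 : ∀ i, Disjoint (F0 '' closedBall n (r i0)) (F i '' closedBall n (r (i0.succAbove i))))
    (hd : Pairwise fun i j => Disjoint (F i '' closedBall n (r (i0.succAbove i)))
      (F j '' closedBall n (r (i0.succAbove j)))) : Packs S r := by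
  refine ⟨i0.insertNth (α := fun _ => (Fin n → ℂ) → (Fin n → ℂ)) F0 F, ?_, ?_, ?_⟩
  · intro i
    refine Fin.succAboveCases i0 ?_ (fun i => ?_) i
    · rw [Fin.insertNth_apply_same]; exact h0
    · rw [Fin.insertNth_apply_succAbove]; exact h i
  · intro i
    refine Fin.succAboveCases i0 ?_ (fun i => ?_) i
    · rw [Fin.insertNth_apply_same]; exact hS0
    · rw [Fin.insertNth_apply_succAbove]; exact hS i
  · intro i j
    refine Fin.succAboveCases i0 ?_ (fun i => ?_) i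
    · refine Fin.succAboveCases i0 ?_ (fun j => ?_) j
      · intro hij; exact absurd rfl hij
      · intro _
        rw [Fin.insertNth_apply_same, Fin.insertNth_apply_succAbove]
        exact hd0 j
    · refine Fin.succAboveCases i0 ?_ (fun j => ?_) j
      · intro _
        rw [Fin.insertNth_apply_same, Fin.insertNth_apply_succAbove]
        exact (hd0 i).symm
      · intro hij
        rw [Fin.insertNth_apply_succAbove, Fin.insertNth_apply_succAbove]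
        exact hd fun hh => hij (by rw [hh])

/-- **One big ball at a single coordinate.** -/
theorem fin_B (j : Fin k) (HG : ∀ (R c : ℝ), 0 < c → c < R →
      ∃ Gam : (Fin (k + 3) → ℂ) → (Fin (k + 4) → ℂ), GamSpec R c Gam)
    (HT : ∀ (R : ℝ) (V : Set (Fin (k + 2) → ℝ)) (gt : (Fin (k + 2) → ℝ) → ℝ), IsOpen V →
      ContDiffOn ℝ ∞ gt V → ∃ T : (Fin (k + 3) → ℂ) → (Fin (k + 3) → ℂ), ThetaSpec R V gt T)
    (HS : StateB) (HD : DomB) {K : ℕ} {R : ℝ} (hRpos : 0 < R) (r : Fin (K + 1) → ℝ)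
    (i0 : Fin (K + 1)) (h0 : ∀ i, 0 < r i) (hR : R / 2 ≤ r i0)
    (h1 : ∀ i, r i0 + r (i0.succAbove i) < R)
    (h2 : ∑ i, r i ^ (k + 3) < R ^ (k + 3)) :
    Packs (openBall (k + 3) R) r := by
  obtain ⟨r0, hr0⟩ : ∃ r0 : ℝ, r0 = r i0 := ⟨_, rfl⟩
  obtain ⟨q, hq⟩ : ∃ q : Fin K → ℝ, q = fun i => r (i0.succAbove i) := ⟨_, rfl⟩
  have hqi : ∀ i, r (i0.succAbove i) = q i := fun i => by rw [hq]
  have hr00 : 0 < r0 := by rw [hr0]; exact h0 i0
  have hq0 : ∀ i, 0 < q i := fun i => by rw [← hqi]; exact h0 _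
  rw [← hr0] at hR
  have hqr : ∀ i, r0 + q i < R := fun i => by rw [hr0, ← hqi]; exact h1 i
  rw [Fin.sum_univ_succAbove _ i0, ← hr0] at h2
  simp only [hqi] at h2
  have ht : ∀ i, max (2 * q i) (r0 + q i) < R := fun i =>
    max_lt (by have := hqr i; linarith) (hqr i)
  obtain ⟨s, hs1, hs2, hs3⟩ := exists_scale (fun i => max (2 * q i) (r0 + q i)) ht _ h2
  have hs0 : 0 < s := by linarith
  obtain ⟨R', hR'⟩ : ∃ R' : ℝ, R' = R / s := ⟨_, rfl⟩
  have hRs : R = R' * s := by rw [hR']; field_simp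
  have hR'0 : 0 < R' := by rw [hR']; positivity
  have hR'R : R' < R := by rw [hRs]; nlinarith
  have hs2' : 1 < s ^ 2 := by nlinarith
  obtain ⟨r', hr'⟩ : ∃ r' : Fin K → ℝ, r' = fun i => s ^ 2 * q i := ⟨_, rfl⟩
  have hr'i : ∀ i, r' i = s ^ 2 * q i := fun i => by rw [hr']
  have hr'0 : ∀ i, 0 < r' i := fun i => by rw [hr'i]; have := hq0 i; positivity
  have hrr' : ∀ i, q i < r' i := fun i => by rw [hr'i]; have := hq0 i; nlinarith
  have hr'R : ∀ i, 2 * r' i < R' := fun i => by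
    rw [hr'i]
    have h3 := lt_of_le_of_lt (mul_le_mul_of_nonneg_left (le_max_left (2 * q i) (r0 + q i))
      (by positivity)) (hs2 i)
    rw [hRs] at h3
    have h4 : s ^ 3 * (2 * q i) = (2 * (s ^ 2 * q i)) * s := by ring
    rw [h4] at h3
    exact lt_of_mul_lt_mul_right h3 hs0.le
  have hr'R0 : ∀ i, r' i < R' - r0 := fun i => by
    rw [hr'i]
    have h3 := lt_of_le_of_lt (mul_le_mul_of_nonneg_left (le_max_right (2 * q i) (r0 + q i))
      (by positivity)) (hs2 i)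
    rw [hRs] at h3
    have h4 : s ^ 3 * (r0 + q i) = (s ^ 2 * r0 + s ^ 2 * q i) * s := by ring
    rw [h4] at h3
    have h5 := lt_of_mul_lt_mul_right h3 hs0.le
    nlinarith
  have hvol : r0 ^ (k + 3) + ∑ i, r' i ^ (k + 3) < R' ^ (k + 3) := by
    have h3 : ∑ i, r' i ^ (k + 3) = s ^ (2 * (k + 3)) * ∑ i, q i ^ (k + 3) := by
      rw [Finset.mul_sum]
      refine Finset.sum_congr rfl fun i _ => ?_
      rw [hr'i, mul_pow, ← pow_mul]
    have h4 : s ^ (3 * (k + 3)) * (r0 ^ (k + 3) + ∑ i, q i ^ (k + 3)) < (R' * s) ^ (k + 3) := by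
      rw [← hRs]; exact hs3
    have h5 : s ^ (3 * (k + 3)) * (r0 ^ (k + 3) + ∑ i, q i ^ (k + 3)) =
        (s ^ (2 * (k + 3)) * r0 ^ (k + 3) + s ^ (2 * (k + 3)) * ∑ i, q i ^ (k + 3)) *
          s ^ (k + 3) := by ring
    rw [h5, mul_pow] at h4
    have h6 := lt_of_mul_lt_mul_right h4 (by positivity)
    have h7 : r0 ^ (k + 3) ≤ s ^ (2 * (k + 3)) * r0 ^ (k + 3) :=
      le_mul_of_one_le_left (by positivity) (one_le_pow₀ hs1.le)
    rw [h3]
    linarith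
  have hsum0 : 0 ≤ ∑ i, r' i ^ (k + 3) :=
    Finset.sum_nonneg fun i _ => by have := hr'0 i; positivity
  have hr0R' : r0 < R' := by
    have h3 : r0 ^ (k + 3) < R' ^ (k + 3) := by linarith
    exact lt_of_pow_lt_pow_left₀ _ hR'0.le h3
  have hden : 0 < R' ^ (k + 3) - r0 ^ (k + 3) := by linarith
  obtain ⟨κ, hκ⟩ : ∃ κ : ℝ, κ = 4 * (∑ i, r' i ^ (k + 3)) / (R' ^ (k + 3) - r0 ^ (k + 3)) :=
    ⟨_, rfl⟩
  have hκ1 : κ * (R' ^ (k + 1 + 2) - r0 ^ (k + 1 + 2)) = (∏ a, cv k a) *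
      ((List.ofFn r').map fun x => x ^ (k + 1 + 2)).sum := by
    rw [cv_prod, list_sum_ofFn, hκ]
    exact div_mul_cancel₀ _ hden.ne'
  have hκ4 : κ ≤ 4 := by
    rw [hκ, div_le_iff₀ hden]
    linarith
  have hrs : ∀ x ∈ List.ofFn r', 0 < x ∧ x < R' - r0 ∧ ∀ a, cv k a * x < R' := by
    intro x hx
    rw [List.mem_ofFn] at hx
    obtain ⟨i, rfl⟩ := hx
    refine ⟨hr'0 i, hr'R0 i, fun a => lt_of_le_of_lt ?_ (hr'R i)⟩
    exact mul_le_mul_of_nonneg_right (cv_le a) (hr'0 i).le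
  obtain ⟨Λ, M, g, hΛ, hg, hpsi⟩ := HS (k + 1) (cv k) j.succ.succ cv_pos (cv_single j) R' r0
    hr00.le hr0R' (List.ofFn r') hrs κ hκ1 (R - R') (by linarith)
  obtain ⟨B, κ', hDom⟩ := HD (k + 2) (cv k) j.succ.succ cv_pos R' (R' - r0) hR'0 (by linarith)
  obtain ⟨F, F1, F2, F3, F4⟩ := model_emb (R := R) (c := R - R') (by linarith)
    (HG R (R - R') (by linarith) (by linarith)) (HT R) hDom (relopen_B _ _ _ _)
    (fun u hu => by rw [LL_eq]; linarith [hu.2.1]) hg hΛ q r' hq0 hrr'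
    (fun i u hu hsum => by
      refine ⟨hu, ?_, ?_⟩
      · calc ∑ a, cv k a * u a ≤ ∑ a, 2 * u a :=
              Finset.sum_le_sum fun a _ => mul_le_mul_of_nonneg_right (cv_le a) (hu a)
          _ = 2 * ∑ a, u a := by rw [Finset.mul_sum]
          _ ≤ 2 * r' i := by linarith
          _ < R' := hr'R i
      · calc u j.succ.succ ≤ ∑ a, u a :=
              Finset.single_le_sum (f := u) (fun a _ => hu a) (Finset.mem_univ _)
          _ ≤ r' i := hsum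
          _ < R' - r0 := hr'R0 i)
    (η := 3 * (R - R')) (by linarith)
    (fun u hu => by
      have h3 := hpsi u hu
      rw [LL_eq]
      have h4 : 0 ≤ R' - ∑ a, cv k a * u a := by linarith [hu.2.1]
      have h5 : κ * (R' - ∑ a, cv k a * u a) ≤ 4 * (R' - ∑ a, cv k a * u a) :=
        mul_le_mul_of_nonneg_right hκ4 h4
      linarith)
  obtain ⟨F0, G1, G2⟩ := big_ball (m := k + 2) (R := R) (r0 := r0) (ε := R - R') hr00
    (by linarith) (by linarith) j.succ.succ.succ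
  refine packs_insert i0 (F0 := F0) (F := F) (by rw [← hr0]; exact G1)
    (fun i => by rw [hqi]; exact F1 i) ?_ (fun i => by rw [hqi]; exact F2 i) ?_ ?_
  · rw [← hr0]
    rintro _ ⟨z, hz, rfl⟩
    exact (G2 z hz).1
  · intro i
    rw [hqi, ← hr0, Set.disjoint_left]
    rintro _ ⟨z, hz, rfl⟩ ⟨w, hw, hzw⟩
    have h3 := (G2 z hz).2
    obtain ⟨u, hu, hu2⟩ := F4 i w hw
    have h4 := hu2 j
    rw [hzw] at h4
    have h5 := hu.2.2
    linarith
  · intro i i' hii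
    show Disjoint (F i '' closedBall (k + 3) (r (i0.succAbove i)))
      (F i' '' closedBall (k + 3) (r (i0.succAbove i')))
    rw [hqi, hqi]
    exact F3 hii

theorem stateA : StateA := fun _ _ hc _ hR rs hrs _ hκ _ hε => H519.state_A hc hR rs hrs hκ hε

theorem stateB : StateB := fun _ _ i hc hci _ _ hr0 hR rs hrs _ hκ _ hε =>
  H519.state_B i hc hci hr0 hR rs hrs hκ hε

theorem domA : DomA := fun _ _ hc _ hR => (H519.dom_A hc hR).1

theorem domB : DomB := fun _ _ i hc _ _ hR hρ => (H519.dom_B i hc hR hρ).1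

/-- the model map and the map `Theta`: the two inputs of the final theorem -/
structure Parts : Prop where
  gam : ∀ (k : ℕ) (R c : ℝ), 0 < c → c < R →
    ∃ Gam : (Fin (k + 3) → ℂ) → (Fin (k + 4) → ℂ), GamSpec R c Gam
  theta : ∀ (k : ℕ) (R : ℝ) (V : Set (Fin (k + 2) → ℝ)) (gt : (Fin (k + 2) → ℝ) → ℝ), IsOpen V →
    ContDiffOn ℝ ∞ gt V → ∃ T : (Fin (k + 3) → ℂ) → (Fin (k + 3) → ℂ), ThetaSpec R V gt T

/-- Conjecture A for radii smaller than half of the big one, all `n ≥ 3`. -/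
theorem packs_small (P : Parts) (k K : ℕ) (R : ℝ) (r : Fin K → ℝ) (hR : 0 < R)
    (h0 : ∀ i, 0 < r i) (h1 : ∀ i, 2 * r i < R) (h2 : ∑ i, r i ^ (k + 3) < R ^ (k + 3)) :
    Packs (openBall (k + 3) R) r :=
  fin_A (P.gam k) (P.theta k) stateA domA hR r h0 h1 h2

/-- Conjecture A for all `n ≥ 4`. -/
theorem conjA_four (P : Parts) (k : ℕ) : ConjA (k + 4) := by
  intro K R r hR h0 h2 h1
  by_cases hbig : ∃ i0, R / 2 ≤ r i0
  · obtain ⟨i0, hi0⟩ := hbig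
    obtain ⟨K', rfl⟩ : ∃ K', K = K' + 1 := ⟨K - 1, by have := i0.2; omega⟩
    refine fin_B (k := k + 1) 0 (P.gam (k + 1)) (P.theta (k + 1)) stateB domB hR r i0 h0 hi0 ?_ h2
    intro i
    have hne : i0.succAbove i ≠ i0 := Fin.succAbove_ne i0 i
    rcases lt_or_gt_of_ne hne with h | h
    · have := h1 _ _ h
      linarith
    · exact h1 _ _ h
  · have h3 : ∀ i, 2 * r i < R := fun i => by
      have := not_le.1 (not_exists.1 hbig i)
      linarith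
    exact packs_small P (k + 1) K R r hR h0 h3 h2

end Vale.Agent.P209.H564
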