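import Vale.Agent.P209.H564.Spec
import Vale.Agent.P209.H564.Chart

/-!
# P209, H564: from a packing of the fundamental domain of the model to a packing of the ball
-/

namespace Vale.Agent.P209.H564

open Vale.Agent.P209 Vale.Agent.P209.H578 Vale.Agent.P209.H684
open scoped ContDiff

variable {k : ℕ}

/-- `L` in terms of the actions -/
noncomputable def LL (R : ℝ) (u : Fin (k + 2) → ℝ) : ℝ :=
  R - ∑ a : Fin (k + 2), ((cf (k := k) a.succ : ℤ) : ℝ) * u a

lemma Lf_eq (R : ℝ) (w : Fin (k + 3) → ℂ) : Lf R w = LL R (uu w) := by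
  unfold Lf LL
  rw [Fin.sum_univ_succ]
  have h : (cf (k := k) 0 : ℤ) = 0 := by simp [cf]
  rw [h]
  simp only [Int.cast_zero, zero_mul, zero_add]
  rfl

lemma continuous_uu {d : ℕ} : Continuous (uu : (Fin (d + 1) → ℂ) → (Fin d → ℝ)) := by
  unfold uu
  fun_prop

lemma contDiff_uu {d : ℕ} : ContDiff ℝ ∞ (uu : (Fin (d + 1) → ℂ) → (Fin d → ℝ)) := by
  rw [contDiff_pi]
  intro a
  unfold uu
  exact contDiff_const.mul ((contDiff_norm_sq ℝ).comp (contDiff_apply ℝ ℂ a.succ))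

lemma continuous_LL (R : ℝ) : Continuous (LL (k := k) R) := by
  unfold LL
  fun_prop

/-- the fundamental domain in the universal cover -/
def Wd (R c : ℝ) (V : Set (Fin (k + 2) → ℝ)) (gt : (Fin (k + 2) → ℝ) → ℝ) :
    Set (Fin (k + 3) → ℂ) :=
  {w | uu w ∈ V ∧ c < Lf R w ∧ gt (uu w) - 4 * Lf R w < (w 0).re ∧ (w 0).re < gt (uu w)}

lemma isOpen_Wd (R c : ℝ) {V : Set (Fin (k + 2) → ℝ)} (hV : IsOpen V)
    {gt : (Fin (k + 2) → ℝ) → ℝ} (hgt : ContDiffOn ℝ ∞ gt V) : IsOpen (Wd R c V gt) := by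
  have hVo : IsOpen {w : Fin (k + 3) → ℂ | uu w ∈ V} := hV.preimage continuous_uu
  have hg : ContinuousOn (fun w : Fin (k + 3) → ℂ => gt (uu w)) {w | uu w ∈ V} :=
    hgt.continuousOn.comp continuous_uu.continuousOn fun w hw => hw
  have hL : Continuous fun w : Fin (k + 3) → ℂ => Lf R w := by
    simp only [Lf_eq]
    exact (continuous_LL R).comp continuous_uu
  have h0 : Continuous fun w : Fin (k + 3) → ℂ => (w 0).re :=
    Complex.continuous_re.comp (continuous_apply 0)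
  have h1 := (hg.sub (continuous_const.mul hL).continuousOn (f := fun w => gt (uu w))
    (g := fun w => 4 * Lf R w)).prodMk h0.continuousOn
  have h2 := h1.isOpen_inter_preimage hVo (isOpen_lt continuous_fst continuous_snd)
  have h3 := (hg.prodMk h0.continuousOn).isOpen_inter_preimage hVo
    (isOpen_lt continuous_snd continuous_fst)
  have h4 : IsOpen {w : Fin (k + 3) → ℂ | c < Lf R w} := isOpen_lt continuous_const hL
  convert (h2.inter h3).inter h4 using 1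
  ext w
  simp only [Wd, Set.mem_setOf_eq, Set.mem_inter_iff, Set.mem_preimage]
  tauto

/-- the map from the fundamental domain to the ball -/
noncomputable def Ph (Gam : (Fin (k + 3) → ℂ) → (Fin (k + 4) → ℂ))
    (T : (Fin (k + 3) → ℂ) → (Fin (k + 3) → ℂ)) (w : Fin (k + 3) → ℂ) : Fin (k + 3) → ℂ :=
  chart k (Gam (T w))

section

variable {R c : ℝ} {V : Set (Fin (k + 2) → ℝ)} {gt : (Fin (k + 2) → ℝ) → ℝ}
  {Gam : (Fin (k + 3) → ℂ) → (Fin (k + 4) → ℂ)} {T : (Fin (k + 3) → ℂ) → (Fin (k + 3) → ℂ)}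

lemma Lf_T (hT : ThetaSpec R V gt T) (w : Fin (k + 3) → ℂ) : Lf R (T w) = Lf R w := by
  rw [Lf_eq, Lf_eq, hT.uu_eq]

lemma Ph_hyp (hc : 0 < c) (hG : GamSpec R c Gam) (hT : ThetaSpec R V gt T)
    {w : Fin (k + 3) → ℂ} (hw : w ∈ Wd R c V gt) : hyp (Gam (T w)) ≠ 0 := by
  intro h
  obtain ⟨h1, h2, h3, h4⟩ := hw
  have hL : c < Lf R (T w) := by rw [Lf_T hT]; exact h2
  obtain ⟨m, hm1, hm2⟩ := hG.trace (T w) hL h
  rw [Lf_T hT] at hm1
  exact hT.avoid w (hc.trans h2) h3 h4 m hm1 hm2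

lemma Gam_T_contDiffAt (hV : IsOpen V) (hG : GamSpec R c Gam) (hT : ThetaSpec R V gt T)
    {w : Fin (k + 3) → ℂ} (hw : w ∈ Wd R c V gt) :
    ContDiffAt ℝ ∞ (fun w => Gam (T w)) w := by
  obtain ⟨h1, h2, h3, h4⟩ := hw
  have hL : Continuous fun w : Fin (k + 3) → ℂ => Lf R w := by
    simp only [Lf_eq]
    exact (continuous_LL R).comp continuous_uu
  have hT1 : ContDiffAt ℝ ∞ T w :=
    hT.smooth.contDiffAt ((hV.preimage continuous_uu).mem_nhds h1)
  have hG1 : ContDiffAt ℝ ∞ Gam (T w) :=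
    hG.smooth.contDiffAt ((isOpen_lt continuous_const hL).mem_nhds (by
      show c < Lf R (T w)
      rw [Lf_T hT]; exact h2))
  exact hG1.comp w hT1

lemma Ph_contDiffAt (hc : 0 < c) (hV : IsOpen V) (hG : GamSpec R c Gam) (hT : ThetaSpec R V gt T)
    {w : Fin (k + 3) → ℂ} (hw : w ∈ Wd R c V gt) : ContDiffAt ℝ ∞ (Ph Gam T) w :=
  (chart_contDiffAt (Ph_hyp hc hG hT hw)).comp w (Gam_T_contDiffAt hV hG hT hw)

lemma Ph_omega (hc : 0 < c) (hV : IsOpen V) (hG : GamSpec R c Gam) (hT : ThetaSpec R V gt T)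
    {w : Fin (k + 3) → ℂ} (hw : w ∈ Wd R c V gt) (v v' : Fin (k + 3) → ℂ) :
    omega (fderiv ℝ (Ph Gam T) w v) (fderiv ℝ (Ph Gam T) w v') = omega v v' := by
  have hL : Continuous fun w : Fin (k + 3) → ℂ => Lf R w := by
    simp only [Lf_eq]
    exact (continuous_LL R).comp continuous_uu
  have hsph : ∀ᶠ y in nhds w, ∑ j, ‖Gam (T y) j‖ ^ 2 = R / Real.pi := by
    have h0 : ∀ᶠ y in nhds w, c < Lf R y := (isOpen_lt continuous_const hL).mem_nhds hw.2.1
    filter_upwards [h0] with y hy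
    have h1 := hG.sphere (T y) (by rw [Lf_T hT]; exact hy)
    rw [← h1]
    field_simp
  have h1 := chart_comp_omega ((Gam_T_contDiffAt hV hG hT hw).differentiableAt (by simp)) hsph
    (Ph_hyp hc hG hT hw) v v'
  have hT1 : DifferentiableAt ℝ T w := (hT.smooth.contDiffAt
    ((hV.preimage continuous_uu).mem_nhds hw.1)).differentiableAt (by simp)
  have hLT : c < Lf R (T w) := by rw [Lf_T hT]; exact hw.2.1
  have hG1 : DifferentiableAt ℝ Gam (T w) := (hG.smooth.contDiffAt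
    ((isOpen_lt continuous_const hL).mem_nhds hLT)).differentiableAt (by simp)
  have h2 : fderiv ℝ (fun w => Gam (T w)) w = (fderiv ℝ Gam (T w)).comp (fderiv ℝ T w) :=
    fderiv_comp w hG1 hT1
  rw [h2] at h1
  simp only [ContinuousLinearMap.comp_apply] at h1
  rw [hG.sympl _ hLT, hT.sympl _ hw.1] at h1
  exact h1

lemma Ph_mem (hc : 0 < c) (hG : GamSpec R c Gam) (hT : ThetaSpec R V gt T)
    {w : Fin (k + 3) → ℂ} (hw : w ∈ Wd R c V gt) : Ph Gam T w ∈ openBall (k + 3) R :=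
  chart_mem (Ph_hyp hc hG hT hw) (hG.sphere _ (by rw [Lf_T hT]; exact hw.2.1))

lemma norm_Fr_succ (m : ℤ) (w : Fin (k + 3) → ℂ) (a : Fin (k + 2)) :
    ‖Fr R m w a.succ‖ = ‖w a.succ‖ := by
  unfold Fr
  rw [if_neg (Fin.succ_ne_zero a), norm_mul, ee_norm, one_mul]

lemma uu_Fr (m : ℤ) (w : Fin (k + 3) → ℂ) : uu (Fr R m w) = uu w := by
  funext a
  show Real.pi * ‖Fr R m w a.succ‖ ^ 2 = Real.pi * ‖w a.succ‖ ^ 2
  rw [norm_Fr_succ]

lemma uu_shift (w : Fin (k + 3) → ℂ) (x : ℂ) : uu (w + Pi.single 0 x) = uu w := by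
  funext a
  show Real.pi * ‖(w + Pi.single 0 x : Fin (k + 3) → ℂ) a.succ‖ ^ 2 = Real.pi * ‖w a.succ‖ ^ 2
  rw [Pi.add_apply, Pi.single_eq_of_ne (Fin.succ_ne_zero a), add_zero]

/-- injectivity modulo integer translations of the angle -/
lemma Ph_inj (hc : 0 < c) (hG : GamSpec R c Gam) (hT : ThetaSpec R V gt T)
    {w w' : Fin (k + 3) → ℂ} (hw : w ∈ Wd R c V gt) (hw' : w' ∈ Wd R c V gt)
    (h : Ph Gam T w = Ph Gam T w') :
    ∃ l : ℤ, w = w' + Pi.single 0 ((l : ℂ) * Complex.I) := by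
  have hL : c < Lf R (T w) := by rw [Lf_T hT]; exact hw.2.1
  have hL' : c < Lf R (T w') := by rw [Lf_T hT]; exact hw'.2.1
  have hs : ∑ j, ‖Gam (T w) j‖ ^ 2 = ∑ j, ‖Gam (T w') j‖ ^ 2 := by
    have h1 := hG.sphere _ hL
    rw [← hG.sphere _ hL'] at h1
    exact mul_left_cancel₀ Real.pi_ne_zero h1
  obtain ⟨e, he, he'⟩ := chart_inj (Ph_hyp hc hG hT hw) (Ph_hyp hc hG hT hw') hs h
  have h2 : Gam (T w') = e • Gam (T w) := by funext j; exact he' j
  obtain ⟨m, l, hml⟩ := hG.inj _ _ hL' hL e he h2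
  have h3 := hT.equiv _ _ m l hml
  have hu : uu w = uu w' := by rw [h3, uu_Fr, uu_shift]
  have hLf : Lf R w = Lf R w' := by rw [Lf_eq, Lf_eq, hu]
  have hre : (w 0).re = (w' 0).re - 4 * m * Lf R w' := by
    have h4 : (w 0).re =
        (Fr R (4 * m) (w' + Pi.single 0 ((l : ℂ) * Complex.I)) 0).re :=
      congrArg (fun x : Fin (k + 3) → ℂ => (x 0).re) h3
    rw [h4]
    have h5 : Lf R (w' + Pi.single 0 ((l : ℂ) * Complex.I)) = Lf R w' := by
      rw [Lf_eq, Lf_eq, uu_shift]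
    unfold Fr
    rw [if_pos rfl, h5, Pi.add_apply, Pi.single_eq_same]
    simp
  obtain ⟨-, a2, a3, a4⟩ := hw
  obtain ⟨-, b2, b3, b4⟩ := hw'
  rw [hu] at a3 a4
  rw [hLf] at a3
  have hLpos : 0 < Lf R w' := hc.trans b2
  have hm0 : m = 0 := by
    have h6 : (m : ℝ) < 1 := by
      by_contra hcon
      have : (1 : ℝ) ≤ m := not_lt.1 hcon
      nlinarith
    have h7 : (-1 : ℝ) < m := by
      by_contra hcon
      have : (m : ℝ) ≤ -1 := not_lt.1 hcon
      nlinarith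
    have h8 : m < 1 := by exact_mod_cast h6
    have h9 : -1 < m := by exact_mod_cast h7
    omega
  refine ⟨l, ?_⟩
  rw [h3, hm0]
  funext b
  unfold Fr
  by_cases hb : b = 0
  · rw [if_pos hb]
    subst hb
    simp
  · rw [if_neg hb]
    simp [ee_zero]

/-- the composition of an embedding into the fundamental domain with `Ph` -/
lemma comp_emb (hc : 0 < c) (hV : IsOpen V) (hG : GamSpec R c Gam) (hT : ThetaSpec R V gt T)
    {r r' : ℝ} (hr : r < r') {F : (Fin (k + 3) → ℂ) → (Fin (k + 3) → ℂ)}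
    (hF : IsSymplecticEmbedding r' F) (hFW : ∀ z ∈ closedBall (k + 3) r', F z ∈ Wd R c V gt)
    (hinj : ∀ z ∈ closedBall (k + 3) r', ∀ z' ∈ closedBall (k + 3) r',
      (F z 0).re = (F z' 0).re → (∀ a : Fin (k + 2), F z a.succ = F z' a.succ) →
      (∃ m : ℤ, (F z 0).im - (F z' 0).im = m) → z = z') :
    IsSymplecticEmbedding r (fun z => Ph Gam T (F z)) := by
  obtain ⟨U, hU, hBU, hcd, -, hs⟩ := hF
  have hsub : openBall (k + 3) r' ⊆ closedBall (k + 3) r' := fun z hz =>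
    (le_of_lt hz : Real.pi * ∑ j, ‖z j‖ ^ 2 ≤ r')
  have ho : IsOpen (openBall (k + 3) r') := by
    refine isOpen_lt ?_ continuous_const
    fun_prop
  have hcd' : ∀ z ∈ openBall (k + 3) r', ContDiffAt ℝ ∞ (fun z => Ph Gam T (F z)) z := by
    intro z hz
    have h1 : ContDiffAt ℝ ∞ F z := hcd.contDiffAt (hU.mem_nhds (hBU (hsub hz)))
    exact (Ph_contDiffAt hc hV hG hT (hFW z (hsub hz))).comp z h1
  have hs' : ∀ z ∈ openBall (k + 3) r', ∀ v w : Fin (k + 3) → ℂ,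
      omega (fderiv ℝ (fun z => Ph Gam T (F z)) z v) (fderiv ℝ (fun z => Ph Gam T (F z)) z w) =
        omega v w := by
    intro z hz v w
    have h1 : DifferentiableAt ℝ F z :=
      (hcd.contDiffAt (hU.mem_nhds (hBU (hsub hz)))).differentiableAt (by simp)
    have h2 : DifferentiableAt ℝ (Ph Gam T) (F z) :=
      (Ph_contDiffAt hc hV hG hT (hFW z (hsub hz))).differentiableAt (by simp)
    have h3 : fderiv ℝ (fun z => Ph Gam T (F z)) z = (fderiv ℝ (Ph Gam T) (F z)).comp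
        (fderiv ℝ F z) := fderiv_comp z h2 h1
    rw [h3]
    simp only [ContinuousLinearMap.comp_apply]
    rw [Ph_omega hc hV hG hT (hFW z (hsub hz)), hs z (hBU (hsub hz))]
  have hin : Set.InjOn (fun z => Ph Gam T (F z)) (openBall (k + 3) r') := by
    intro z hz z' hz' h
    obtain ⟨l, hl⟩ := Ph_inj hc hG hT (hFW z (hsub hz)) (hFW z' (hsub hz')) h
    refine hinj z (hsub hz) z' (hsub hz') ?_ ?_ ⟨l, ?_⟩
    · rw [hl]; simp
    · intro a
      rw [hl, Pi.add_apply, Pi.single_eq_of_ne (Fin.succ_ne_zero a), add_zero]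
    · rw [hl]; simp
  have hcdo : ContDiffOn ℝ ∞ (fun z => Ph Gam T (F z)) (openBall (k + 3) r') :=
    fun z hz => (hcd' z hz).contDiffWithinAt
  exact ⟨openBall (k + 3) r', ho, fun z hz => lt_of_le_of_lt hz hr, hcdo,
    isOpenEmbedding_of_sympl ho hcdo hin hs', hs'⟩

/-- from a packing of the fundamental domain to disjoint embeddings into the ball -/
theorem core_emb (hc : 0 < c) (hV : IsOpen V) (hG : GamSpec R c Gam) (hT : ThetaSpec R V gt T)
    {ι : Type*} {r r' : ι → ℝ} (hr : ∀ i, r i < r' i)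
    {F : ι → (Fin (k + 3) → ℂ) → (Fin (k + 3) → ℂ)}
    (hF : ∀ i, IsSymplecticEmbedding (r' i) (F i))
    (hFW : ∀ i, ∀ z ∈ closedBall (k + 3) (r' i), F i z ∈ Wd R c V gt)
    (hinj : ∀ i j, ∀ z ∈ closedBall (k + 3) (r' i), ∀ z' ∈ closedBall (k + 3) (r' j),
      (F i z 0).re = (F j z' 0).re → (∀ a : Fin (k + 2), F i z a.succ = F j z' a.succ) →
      i = j ∧ ((∃ m : ℤ, (F i z 0).im - (F j z' 0).im = m) → z = z')) :
    (∀ i, IsSymplecticEmbedding (r i) (fun z => Ph Gam T (F i z))) ∧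
    (∀ i, (fun z => Ph Gam T (F i z)) '' closedBall (k + 3) (r i) ⊆ openBall (k + 3) R) ∧
    (Pairwise fun i j => Disjoint ((fun z => Ph Gam T (F i z)) '' closedBall (k + 3) (r i))
      ((fun z => Ph Gam T (F j z)) '' closedBall (k + 3) (r j))) := by
  have hsub : ∀ i, closedBall (k + 3) (r i) ⊆ closedBall (k + 3) (r' i) :=
    fun i z hz => le_trans hz (hr i).le
  refine ⟨fun i => ?_, ?_, ?_⟩
  · exact comp_emb hc hV hG hT (hr i) (hF i) (hFW i)
      fun z hz z' hz' h1 h2 h3 => (hinj i i z hz z' hz' h1 h2).2 h3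
  · rintro i _ ⟨z, hz, rfl⟩
    exact Ph_mem hc hG hT (hFW i z (hsub i hz))
  · intro i j hij
    rw [Set.disjoint_left]
    rintro _ ⟨z, hz, rfl⟩ ⟨w, hw, hzw⟩
    obtain ⟨l, hl⟩ := Ph_inj hc hG hT (hFW j w (hsub j hw)) (hFW i z (hsub i hz)) hzw
    refine hij (hinj i j z (hsub i hz) w (hsub j hw) ?_ ?_).1
    · rw [hl]; simp
    · intro a
      rw [hl, Pi.add_apply, Pi.single_eq_of_ne (Fin.succ_ne_zero a), add_zero]

end

end Vale.Agent.P209.H564
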