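import Vale.Agent.P209.H564.Final
import Vale.Agent.P209.H974.Wrap

/-!
# P209, H564: `n = 3` with one big ball, from the model `M`
-/

namespace Vale.Agent.P209.H564

open Vale.Agent.P209 Vale.Agent.P209.H578 Vale.Agent.P209.H684 Vale.Agent.P209.H519
open Vale.Agent.P209.H856 (psiL DomOK State)
open Vale.Agent.P209.H753 (absv)
open Vale.Agent.P209.H974 (Tk IntA DomW WrapSpec pd)
open scoped ContDiff

/-- An injective (modulo translations of the angle) symplectic map on `W` transports packings. -/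
theorem core_emb' {d : ℕ} {W : Set (Fin (d + 1) → ℂ)} {Φ : (Fin (d + 1) → ℂ) → (Fin (d + 1) → ℂ)}
    {S : Set (Fin (d + 1) → ℂ)}
    (hsm : ∀ w ∈ W, ContDiffAt ℝ ∞ Φ w)
    (hsy : ∀ w ∈ W, ∀ v v', omega (fderiv ℝ Φ w v) (fderiv ℝ Φ w v') = omega v v')
    (hmem : ∀ w ∈ W, Φ w ∈ S)
    (hin : ∀ w ∈ W, ∀ w' ∈ W, Φ w = Φ w' → ∃ l : ℤ, w = H974.sft l w')
    {ι : Type*} {r r' : ι → ℝ} (hr : ∀ i, r i < r' i)
    {F : ι → (Fin (d + 1) → ℂ) → (Fin (d + 1) → ℂ)}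
    (hF : ∀ i, IsSymplecticEmbedding (r' i) (F i))
    (hFW : ∀ i, ∀ z ∈ closedBall (d + 1) (r' i), F i z ∈ W)
    (hinj : ∀ i j, ∀ z ∈ closedBall (d + 1) (r' i), ∀ z' ∈ closedBall (d + 1) (r' j),
      (F i z 0).re = (F j z' 0).re → (∀ a : Fin d, F i z a.succ = F j z' a.succ) →
      i = j ∧ ((∃ m : ℤ, (F i z 0).im - (F j z' 0).im = m) → z = z')) :
    (∀ i, IsSymplecticEmbedding (r i) (fun z => Φ (F i z))) ∧
    (∀ i, (fun z => Φ (F i z)) '' closedBall (d + 1) (r i) ⊆ S) ∧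
    (Pairwise fun i j => Disjoint ((fun z => Φ (F i z)) '' closedBall (d + 1) (r i))
      ((fun z => Φ (F j z)) '' closedBall (d + 1) (r j))) := by
  have hsub : ∀ i, closedBall (d + 1) (r i) ⊆ closedBall (d + 1) (r' i) :=
    fun i z hz => le_trans hz (hr i).le
  have hsub' : ∀ i, openBall (d + 1) (r' i) ⊆ closedBall (d + 1) (r' i) := fun i z hz =>
    (le_of_lt hz : Real.pi * ∑ j, ‖z j‖ ^ 2 ≤ r' i)
  refine ⟨fun i => ?_, ?_, ?_⟩
  · obtain ⟨U, hU, hBU, hcd, -, hs⟩ := hF i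
    have ho : IsOpen (openBall (d + 1) (r' i)) := by
      refine isOpen_lt ?_ continuous_const
      fun_prop
    have hcd' : ∀ z ∈ openBall (d + 1) (r' i), ContDiffAt ℝ ∞ (fun z => Φ (F i z)) z := by
      intro z hz
      have h1 : ContDiffAt ℝ ∞ (F i) z := hcd.contDiffAt (hU.mem_nhds (hBU (hsub' i hz)))
      exact (hsm _ (hFW i z (hsub' i hz))).comp z h1
    have hs' : ∀ z ∈ openBall (d + 1) (r' i), ∀ v w : Fin (d + 1) → ℂ,
        omega (fderiv ℝ (fun z => Φ (F i z)) z v) (fderiv ℝ (fun z => Φ (F i z)) z w) =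
          omega v w := by
      intro z hz v w
      have h1 : DifferentiableAt ℝ (F i) z :=
        (hcd.contDiffAt (hU.mem_nhds (hBU (hsub' i hz)))).differentiableAt (by simp)
      have h2 : DifferentiableAt ℝ Φ (F i z) :=
        (hsm _ (hFW i z (hsub' i hz))).differentiableAt (by simp)
      have h3 : fderiv ℝ (fun z => Φ (F i z)) z = (fderiv ℝ Φ (F i z)).comp
          (fderiv ℝ (F i) z) := fderiv_comp z h2 h1
      rw [h3]
      simp only [ContinuousLinearMap.comp_apply]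
      rw [hsy _ (hFW i z (hsub' i hz)), hs z (hBU (hsub' i hz))]
    have hin' : Set.InjOn (fun z => Φ (F i z)) (openBall (d + 1) (r' i)) := by
      intro z hz z' hz' h
      obtain ⟨l, hl⟩ := hin _ (hFW i z (hsub' i hz)) _ (hFW i z' (hsub' i hz')) h
      refine (hinj i i z (hsub' i hz) z' (hsub' i hz') ?_ ?_).2 ⟨l, ?_⟩
      · rw [hl, H974.sft_re]
      · intro a
        rw [hl, H974.sft_succ]
      · rw [hl, H974.sft_im]; ring
    have hcdo : ContDiffOn ℝ ∞ (fun z => Φ (F i z)) (openBall (d + 1) (r' i)) :=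
      fun z hz => (hcd' z hz).contDiffWithinAt
    exact ⟨openBall (d + 1) (r' i), ho, fun z hz => lt_of_le_of_lt hz (hr i), hcdo,
      isOpenEmbedding_of_sympl ho hcdo hin' hs', hs'⟩
  · rintro i _ ⟨z, hz, rfl⟩
    exact hmem _ (hFW i z (hsub i hz))
  · intro i j hij
    rw [Set.disjoint_left]
    rintro _ ⟨z, hz, rfl⟩ ⟨w, hw, hzw⟩
    obtain ⟨l, hl⟩ := hin _ (hFW j w (hsub j hw)) _ (hFW i z (hsub i hz)) hzw
    refine hij (hinj i j z (hsub i hz) w (hsub j hw) ?_ ?_).1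
    · rw [hl, H974.sft_re]
    · intro a
      rw [hl, H974.sft_succ]

/-! ### the periodic shear which moves the wall `p = g` at `θ ∈ ℤ` to `p = σ` -/

section PShear

variable {d : ℕ} {D : (Fin d → ℝ) → ℝ} {V : Set (Fin d → ℝ)}

/-- the generating function -/
noncomputable def Gps (D : (Fin d → ℝ) → ℝ) (q : ℝ × (Fin d → ℝ)) : ℝ :=
  D q.2 * (Real.sin (2 * Real.pi * q.1) / (2 * Real.pi))

lemma Gps_contDiffAt (hV : IsOpen V) (hD : ContDiffOn ℝ ∞ D V) {q : ℝ × (Fin d → ℝ)}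
    (hq : q.2 ∈ V) : ContDiffAt ℝ ∞ (Gps D) q := by
  unfold Gps
  have h1 : ContDiffAt ℝ ∞ (fun q : ℝ × (Fin d → ℝ) => D q.2) q :=
    ContDiffAt.comp (g := D) q (hD.contDiffAt (hV.mem_nhds hq)) contDiffAt_snd
  refine h1.mul ?_
  refine ContDiffAt.div_const ?_ _
  exact Real.contDiff_sin.contDiffAt.comp q (contDiffAt_const.mul contDiffAt_fst)

lemma Gps_fderiv (hV : IsOpen V) (hD : ContDiffOn ℝ ∞ D V) {θ : ℝ} {u : Fin d → ℝ}
    (hu : u ∈ V) :
    fderiv ℝ (Gps D) (θ, u) (1, 0) = D u * Real.cos (2 * Real.pi * θ) ∧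
    ∀ a, fderiv ℝ (Gps D) (θ, u) (0, Pi.single a 1) =
      fderiv ℝ D u (Pi.single a 1) * (Real.sin (2 * Real.pi * θ) / (2 * Real.pi)) := by
  have hpi := Real.pi_pos
  have hg1 : HasFDerivAt D (fderiv ℝ D u) u :=
    ((hD.contDiffAt (hV.mem_nhds hu)).differentiableAt (by simp)).hasFDerivAt
  have ha2 : HasDerivAt (fun θ : ℝ => Real.sin (2 * Real.pi * θ) / (2 * Real.pi))
      (Real.cos (2 * Real.pi * θ)) θ := by
    have h1 : HasDerivAt (fun θ : ℝ => 2 * Real.pi * θ) (2 * Real.pi) θ := by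
      simpa using (hasDerivAt_id θ).const_mul (2 * Real.pi)
    have h2 := (h1.sin).div_const (2 * Real.pi)
    refine h2.congr_deriv ?_
    field_simp
  obtain ⟨M2, hM2, hM2v⟩ := prod_hasFDerivAt (q := (θ, u)) hg1 ha2
  have h1 : fderiv ℝ (Gps D) (θ, u) = M2 := hM2.fderiv
  rw [h1]
  refine ⟨?_, fun a => ?_⟩
  · rw [hM2v]
    simp only [mul_one, map_zero, mul_zero, add_zero]
  · rw [hM2v]
    simp only [mul_zero, zero_add]
    ring

lemma sin_shift2 (θ : ℝ) (l : ℤ) :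
    Real.sin (2 * Real.pi * (θ + l)) = Real.sin (2 * Real.pi * θ) := by
  have h : 2 * Real.pi * (θ + l) = 2 * Real.pi * θ + (l : ℝ) * (2 * Real.pi) := by ring
  rw [h, Real.sin_add_int_mul_two_pi]

lemma cos_shift2 (θ : ℝ) (l : ℤ) :
    Real.cos (2 * Real.pi * (θ + l)) = Real.cos (2 * Real.pi * θ) := by
  have h : 2 * Real.pi * (θ + l) = 2 * Real.pi * θ + (l : ℝ) * (2 * Real.pi) := by ring
  rw [h, Real.cos_add_int_mul_two_pi]

/-- the periodic shear commutes with the deck maps -/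
lemma shr_Tk (hV : IsOpen V) (hD : ContDiffOn ℝ ∞ D V) (C : (Fin d → ℝ) → ℝ) (m l : ℤ)
    {w : Fin (d + 1) → ℂ} (hw : uu w ∈ V) :
    shr (Gps D) (H974.sft l (Tk C m w)) = H974.sft l (Tk C m (shr (Gps D) w)) := by
  have hq1 : qv (H974.sft l (Tk C m w)) = ((w 0).im + l, uu w) := by
    unfold qv
    rw [H974.sft_im, H974.Tk_im, H974.uu_sft, H974.uu_Tk]
  have hqw : qv w = ((w 0).im, uu w) := rfl
  obtain ⟨h1, h2⟩ := Gps_fderiv hV hD (θ := (w 0).im) hw
  obtain ⟨h3, h4⟩ := Gps_fderiv hV hD (θ := (w 0).im + l) hw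
  rw [cos_shift2] at h3
  funext i
  refine Fin.cases ?_ (fun a => ?_) i
  · rw [shr_zero, hq1, h3, H974.sft_zero_slot, H974.sft_zero_slot, H974.Tk_zero_slot,
      H974.Tk_zero_slot, uu_shr, shr_zero, hqw, h1]
    ring
  · rw [shr_succ, hq1, h4, sin_shift2, H974.sft_succ, H974.sft_succ, H974.Tk_succ,
      H974.Tk_succ, uu_shr, shr_im, shr_succ, hqw, h2]
    ring

end PShear

/-- The model `M` of `CP³(R)` minus a ball: what the geometry has to deliver. -/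
def ModelM : Prop := ∀ (R c R' c' : ℝ), 0 < c' → c' < c → 2 * c < R → R' < R → 2 * c' < R' →
  ∀ η : ℝ, 0 < η →
  ∃ (V : Set (Fin 2 → ℝ)) (C σ : (Fin 2 → ℝ) → ℝ) (G : (Fin 3 → ℂ) → (Fin 3 → ℂ)),
    IsOpen V ∧ Om3c R' c' ⊆ V ∧ ContDiff ℝ ∞ C ∧ ContDiffOn ℝ ∞ σ V ∧
    (∀ u ∈ Om3c R' c', C3 R c (u 0 + u 1) - η ≤ C u) ∧
    WrapSpec V C σ (fun z => z ∈ openBall 3 R ∧ Real.pi * ‖z 0‖ ^ 2 < c) G

/-- the shear is injective -/
lemma shr_inj' {d : ℕ} {G : ℝ × (Fin d → ℝ) → ℝ} {w w' : Fin (d + 1) → ℂ}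
    (h : shr G w = shr G w') : w = w' := by
  have hq : qv w = qv w' := by rw [← qv_shr G w, ← qv_shr G w', h]
  funext i
  refine Fin.cases ?_ (fun a => ?_) i
  · have h1 := congrFun h 0
    rw [shr_zero, shr_zero, hq] at h1
    exact add_right_cancel h1
  · have h1 := congrFun h a.succ
    rw [shr_succ, shr_succ, hq] at h1
    exact mul_left_cancel₀ (ee_ne_zero _) h1

/-- injectivity modulo translations of the angle on a fundamental domain -/
lemma psh_inj {V : Set (Fin 2 → ℝ)} {C σ gt : (Fin 2 → ℝ) → ℝ} {W : Set (Fin 2 → ℝ)}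
    {G : (Fin 3 → ℂ) → (Fin 3 → ℂ)} {P : (Fin 3 → ℂ) → Prop} (hV : IsOpen W)
    (hD : ContDiffOn ℝ ∞ (fun u => σ u - gt u) W) (hWV : W ⊆ V) (hG : WrapSpec V C σ P G)
    {w : Fin 3 → ℂ} (hw : uu w ∈ W ∧ gt (uu w) - C (uu w) < (w 0).re ∧ (w 0).re < gt (uu w)) :
    shr (Gps fun u => σ u - gt u) w ∈ DomW V C σ := by
  obtain ⟨h0, h1, h2⟩ := hw
  refine ⟨by rw [uu_shr]; exact hWV h0, fun hI => ?_⟩
  unfold IntA at hI
  rw [shr_im] at hI
  have hθ : (w 0).im = (⌊(w 0).im⌋ : ℝ) := by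
    have := Int.floor_add_fract (w 0).im
    rw [hI, add_zero] at this
    exact this.symm
  have hcos : Real.cos (2 * Real.pi * (w 0).im) = 1 := by
    have h3 := cos_shift2 0 ⌊(w 0).im⌋
    rw [zero_add, ← hθ] at h3
    rw [h3]; simp
  obtain ⟨h3, -⟩ := Gps_fderiv hV hD (θ := (w 0).im) h0
  have hqw : qv w = ((w 0).im, uu w) := rfl
  rw [uu_shr, shr_re, hqw, h3, hcos]
  constructor <;> linarith

/-- **`n = 3`, one big ball.** -/
theorem fin_M (HM : ModelM) {K : ℕ} {R : ℝ} (hRpos : 0 < R) (r : Fin (K + 1) → ℝ)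
    (i0 : Fin (K + 1)) (h0 : ∀ i, 0 < r i) (hR : R / 2 ≤ r i0)
    (h1 : ∀ i, r i0 + r (i0.succAbove i) < R)
    (h2 : ∑ i, r i ^ 3 < R ^ 3) :
    Packs (openBall 3 R) r := by
  obtain ⟨r0, hr0⟩ : ∃ r0 : ℝ, r0 = r i0 := ⟨_, rfl⟩
  obtain ⟨q, hq⟩ : ∃ q : Fin K → ℝ, q = fun i => r (i0.succAbove i) := ⟨_, rfl⟩
  have hqi : ∀ i, r (i0.succAbove i) = q i := fun i => by rw [hq]
  have hr00 : 0 < r0 := by rw [hr0]; exact h0 i0
  have hq0 : ∀ i, 0 < q i := fun i => by rw [← hqi]; exact h0 _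
  rw [← hr0] at hR
  have hqr : ∀ i, r0 + q i < R := fun i => by rw [hr0, ← hqi]; exact h1 i
  rw [Fin.sum_univ_succAbove _ i0, ← hr0] at h2
  simp only [hqi] at h2
  obtain ⟨s, hs1, hs2, hs3⟩ := exists_scale (fun i => r0 + q i) hqr _ h2
  have hs0 : 0 < s := by linarith
  obtain ⟨R', hR'⟩ : ∃ R' : ℝ, R' = R / s := ⟨_, rfl⟩
  have hRs : R = R' * s := by rw [hR']; field_simp
  have hR'0 : 0 < R' := by rw [hR']; positivity
  have hR'R : R' < R := by rw [hRs]; nlinarith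
  have hs2' : 1 < s ^ 2 := by nlinarith
  obtain ⟨r', hr'⟩ : ∃ r' : Fin K → ℝ, r' = fun i => s ^ 2 * q i := ⟨_, rfl⟩
  have hr'i : ∀ i, r' i = s ^ 2 * q i := fun i => by rw [hr']
  have hr'0 : ∀ i, 0 < r' i := fun i => by rw [hr'i]; have := hq0 i; positivity
  have hrr' : ∀ i, q i < r' i := fun i => by rw [hr'i]; have := hq0 i; nlinarith
  have hr'R0 : ∀ i, r' i < R' - r0 := fun i => by
    rw [hr'i]
    have h3 := hs2 i
    rw [hRs] at h3
    have h4 : s ^ 3 * (r0 + q i) = (s ^ 2 * r0 + s ^ 2 * q i) * s := by ring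
    rw [h4] at h3
    have h5 := lt_of_mul_lt_mul_right h3 hs0.le
    nlinarith
  have hvol : r0 ^ 3 + ∑ i, r' i ^ 3 < R' ^ 3 := by
    have h3 : ∑ i, r' i ^ 3 = s ^ 6 * ∑ i, q i ^ 3 := by
      rw [Finset.mul_sum]
      refine Finset.sum_congr rfl fun i _ => ?_
      rw [hr'i, mul_pow, ← pow_mul]
    have h4 : s ^ (3 * 3) * (r0 ^ 3 + ∑ i, q i ^ 3) < (R' * s) ^ 3 := by
      rw [← hRs]; exact hs3
    have h5 : s ^ (3 * 3) * (r0 ^ 3 + ∑ i, q i ^ 3) =
        (s ^ 6 * r0 ^ 3 + s ^ 6 * ∑ i, q i ^ 3) * s ^ 3 := by ring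
    rw [h5, mul_pow] at h4
    have h6 := lt_of_mul_lt_mul_right h4 (by positivity)
    have h7 : r0 ^ 3 ≤ s ^ 6 * r0 ^ 3 :=
      le_mul_of_one_le_left (by positivity) (one_le_pow₀ hs1.le)
    rw [h3]
    linarith
  have hsum0 : 0 ≤ ∑ i, r' i ^ 3 :=
    Finset.sum_nonneg fun i _ => by have := hr'0 i; positivity
  have hr0R' : r0 < R' := by
    have h3 : r0 ^ 3 < R' ^ 3 := by linarith
    exact lt_of_pow_lt_pow_left₀ _ hR'0.le h3
  -- the parameters of the model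
  obtain ⟨c', hc'⟩ : ∃ c' : ℝ, c' = R' - r0 := ⟨_, rfl⟩
  obtain ⟨c1, hc1⟩ : ∃ c1 : ℝ, c1 = (R + R') / 2 - r0 := ⟨_, rfl⟩
  have hc'0 : 0 < c' := by rw [hc']; linarith
  have hcc : c' < c1 := by rw [hc', hc1]; linarith
  have h2c : 2 * c1 < R := by rw [hc1]; linarith
  have h2c' : 2 * c' < R' := by rw [hc']; linarith
  have hden : 0 < R' ^ 3 - (R' - c') ^ 3 := by
    have : R' - c' = r0 := by rw [hc']; ring
    rw [this]; linarith
  obtain ⟨κ, hκ⟩ : ∃ κ : ℝ, κ = (∑ i, r' i ^ 3) / (R' ^ 3 - (R' - c') ^ 3) := ⟨_, rfl⟩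
  have hκ1 : κ * (R' ^ 3 - (R' - c') ^ 3) = ((List.ofFn r').map fun x => x ^ 3).sum := by
    rw [list_sum_ofFn, hκ]
    exact div_mul_cancel₀ _ hden.ne'
  have hκ4 : κ ≤ 1 := by
    rw [hκ, div_le_iff₀ hden]
    have : R' - c' = r0 := by rw [hc']; ring
    rw [this]
    linarith
  have hrs : ∀ x ∈ List.ofFn r', 0 < x ∧ x < c' := by
    intro x hx
    rw [List.mem_ofFn] at hx
    obtain ⟨i, rfl⟩ := hx
    exact ⟨hr'0 i, by rw [hc']; exact hr'R0 i⟩
  obtain ⟨δ, hδ⟩ : ∃ δ : ℝ, δ = R - R' := ⟨_, rfl⟩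
  have hδ0 : 0 < δ := by rw [hδ]; linarith
  obtain ⟨Λ, M, g, hΛ, hg, hpsi⟩ := state_M hc'0 h2c'.le (List.ofFn r') hrs hκ1 hδ0
  obtain ⟨⟨B, κ', hDom⟩, hrel⟩ := dom_M hR'0 hc'0
  obtain ⟨V, C, σ, G, hV, hOmV, hC, hσ, hCge, hG⟩ := HM R c1 R' c' hc'0 hcc h2c hR'R h2c' δ hδ0
  -- the inequality
  have hkey : ∀ u ∈ Om3c R' c', g u + δ ≤ psiL (Om3c R' c') (List.ofFn r') g u + C u := by
    intro u hu
    have e1 := hpsi u hu
    have e2 := hCge u hu
    obtain ⟨t, ht⟩ : ∃ t : ℝ, t = u 0 + u 1 := ⟨_, rfl⟩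
    rw [← ht] at e1 e2
    have ht0 : 0 ≤ t := by rw [ht]; linarith [hu.1, hu.2.1]
    have ht1 : t < (R' + c') / 3 := by rw [ht]; exact hu.2.2.2
    have e3 : 0 ≤ C3 R' c' t := by
      refine le_min ?_ ?_
      · linarith
      · linarith
    have e4 : κ * C3 R' c' t ≤ C3 R' c' t := by nlinarith
    have e5 : C3 R' c' t + 3 * δ ≤ C3 R c1 t := by
      refine le_min ?_ ?_
      · have := min_le_left (3 * R' + c' - 7 * t) (3 * R' + 3 * c' - 9 * t)
        unfold C3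
        rw [hδ]
        linarith
      · have := min_le_right (3 * R' + c' - 7 * t) (3 * R' + 3 * c' - 9 * t)
        unfold C3
        rw [hδ]
        linarith
    linarith
  -- intermediate radii
  obtain ⟨r1, hr1⟩ : ∃ r1 : Fin K → ℝ, r1 = fun i => (q i + r' i) / 2 := ⟨_, rfl⟩
  have ha : ∀ i, q i < r1 i := fun i => by
    rw [hr1]; show q i < (q i + r' i) / 2; linarith [hrr' i]
  have hb : ∀ i, r1 i < r' i := fun i => by
    rw [hr1]; show (q i + r' i) / 2 < r' i; linarith [hrr' i]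
  have hPS := engine hDom hrel hg hΛ K r1 r' (fun i => (hq0 i).trans (ha i)) hb
    (fun i u hu hsum => by
      rw [Fin.sum_univ_two] at hsum
      have e1 := hu 0
      have e2 := hu 1
      have e3 := hr'R0 i
      refine ⟨e1, e2, ?_, ?_⟩
      · rw [hc']; linarith
      · linarith)
  -- the smooth wall
  obtain ⟨O, hO, hOm⟩ := hrel
  have hVo : IsOpen {x : Fin 2 → ℝ | absv x ∈ Om3c R' c'} := by
    have h3 : {x : Fin 2 → ℝ | absv x ∈ Om3c R' c'} = absv ⁻¹' O := by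
      ext x
      rw [hOm]
      exact ⟨fun h => h.1, fun h => ⟨h, fun a => abs_nonneg _⟩⟩
    rw [h3]
    exact hO.preimage H753.continuous_absv
  obtain ⟨gt, hgt, hgt2⟩ := H753.exists_smooth_orthant hVo (hg.cls.continuousOn hDom hΛ)
    (half_pos hδ0)
  obtain ⟨F, hF1, hF2, hF3⟩ := hPS (δ / 2) (half_pos hδ0)
  -- the domain
  obtain ⟨W, hW⟩ : ∃ W : Set (Fin 2 → ℝ), W = V ∩ {x | absv x ∈ Om3c R' c'} := ⟨_, rfl⟩
  have hWo : IsOpen W := by rw [hW]; exact hV.inter hVo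
  have hWV : W ⊆ V := by rw [hW]; exact Set.inter_subset_left
  have hD : ContDiffOn ℝ ∞ (fun u => σ u - gt u) W := by
    rw [hW]
    exact (hσ.mono Set.inter_subset_left).sub (hgt.mono Set.inter_subset_right)
  obtain ⟨W3, hW3⟩ : ∃ W3 : Set (Fin 3 → ℂ), W3 = {w | uu w ∈ W ∧
    gt (uu w) - C (uu w) < (w 0).re ∧ (w 0).re < gt (uu w)} := ⟨_, rfl⟩
  have hmW3 : ∀ w, w ∈ W3 ↔ uu w ∈ W ∧ gt (uu w) - C (uu w) < (w 0).re ∧ (w 0).re < gt (uu w) :=
    fun w => by rw [hW3]; rfl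
  have hdom : ∀ w ∈ W3, shr (Gps fun u => σ u - gt u) w ∈ DomW V C σ := fun w hw =>
    psh_inj hWo hD hWV hG ((hmW3 w).1 hw)
  have hshr : ∀ w ∈ W3, ContDiffAt ℝ ∞ (shr (Gps fun u => σ u - gt u)) w := fun w hw =>
    shr_contDiffAt (Gps_contDiffAt hWo hD (q := qv w) ((hmW3 w).1 hw).1)
  have hFW : ∀ i, ∀ z ∈ closedBall (2 + 1) (r1 i), F i z ∈ W3 := by
    intro i z hz
    obtain ⟨a1, a2, a3⟩ := hF2 i z hz
    have hnn := hDom.nonneg _ a1
    obtain ⟨b1, b2⟩ := hgt2 _ a1 hnn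
    have b3 := hkey _ a1
    rw [hmW3]
    refine ⟨?_, ?_, ?_⟩
    · rw [hW]
      refine ⟨hOmV a1, ?_⟩
      show absv (uu (F i z)) ∈ Om3c R' c'
      rw [H753.absv_of_nonneg hnn]; exact a1
    · linarith
    · linarith
  obtain ⟨c1', c2', c3'⟩ := core_emb' (W := W3)
    (Φ := fun w => G (shr (Gps fun u => σ u - gt u) w))
    (S := {z | z ∈ openBall 3 R ∧ Real.pi * ‖z 0‖ ^ 2 < c1})
    (fun w hw => (hG.smooth _ (hdom w hw)).comp w (hshr w hw))
    (fun w hw v v' => by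
      have e1 : DifferentiableAt ℝ (shr (Gps fun u => σ u - gt u)) w :=
        (hshr w hw).differentiableAt (by simp)
      have e2 : DifferentiableAt ℝ G (shr (Gps fun u => σ u - gt u) w) :=
        (hG.smooth _ (hdom w hw)).differentiableAt (by simp)
      have e3 : fderiv ℝ (fun w => G (shr (Gps fun u => σ u - gt u) w)) w =
          (fderiv ℝ G (shr (Gps fun u => σ u - gt u) w)).comp
            (fderiv ℝ (shr (Gps fun u => σ u - gt u)) w) := fderiv_comp w e2 e1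
      rw [e3]
      simp only [ContinuousLinearMap.comp_apply]
      rw [hG.sympl _ (hdom w hw),
        shr_omega (Gps_contDiffAt hWo hD (q := qv w) ((hmW3 w).1 hw).1)])
    (fun w hw => hG.prop _ (hdom w hw))
    (fun w hw w' hw' h => by
      obtain ⟨m, l, hml⟩ := hG.inj _ (hdom w' hw') _ (hdom w hw) h.symm
      have hw1 := (hmW3 w).1 hw
      have hw1' := (hmW3 w').1 hw'
      rw [← shr_Tk hWo hD C m l hw1'.1] at hml
      have e1 := shr_inj' hml
      have e2 : uu w = uu w' := by rw [e1, H974.uu_sft, H974.uu_Tk]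
      have e3 : (w 0).re = (w' 0).re - m * C (uu w') := by
        rw [e1, H974.sft_re, H974.Tk_re]
      obtain ⟨-, a2, a3⟩ := hw1
      obtain ⟨-, b2, b3⟩ := hw1'
      rw [e2] at a2 a3
      have hCpos : 0 < C (uu w') := by linarith
      have hm0 : m = 0 := by
        have h6 : (m : ℝ) < 1 := by
          by_contra hcon
          have : (1 : ℝ) ≤ m := not_lt.1 hcon
          nlinarith
        have h7 : (-1 : ℝ) < m := by
          by_contra hcon
          have : (m : ℝ) ≤ -1 := not_lt.1 hcon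
          nlinarith
        have h8 : m < 1 := by exact_mod_cast h6
        have h9 : -1 < m := by exact_mod_cast h7
        omega
      rw [hm0, H974.Tk_zero] at e1
      exact ⟨l, e1⟩)
    ha hF1 hFW hF3
  obtain ⟨F0, G1, G2⟩ := big_ball (m := 2) (R := R) (r0 := r0) (ε := (R - R') / 2) hr00
    (by linarith) (by linarith) 0
  refine packs_insert i0 (F0 := F0) (F := fun i z => G (shr (Gps fun u => σ u - gt u) (F i z)))
    (by rw [← hr0]; exact G1)
    (fun i => by rw [hqi]; exact c1' i) ?_ (fun i => ?_) ?_ ?_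
  · rw [← hr0]
    rintro _ ⟨z, hz, rfl⟩
    exact (G2 z hz).1
  · rw [hqi]
    exact fun z hz => (c2' i hz).1
  · intro i
    rw [hqi, ← hr0, Set.disjoint_left]
    rintro _ ⟨z, hz, rfl⟩ ⟨w, hw, hzw⟩
    have h3 := (G2 z hz).2
    have h4 : F0 z ∈ {z : Fin (2 + 1) → ℂ | z ∈ openBall 3 R ∧ Real.pi * ‖z 0‖ ^ 2 < c1} :=
      c2' i ⟨w, hw, hzw⟩
    have h5 := h4.2
    linarith
  · intro i i' hii
    show Disjoint ((fun z => G (shr (Gps fun u => σ u - gt u) (F i z))) ''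
      closedBall 3 (r (i0.succAbove i))) ((fun z => G (shr (Gps fun u => σ u - gt u) (F i' z))) ''
      closedBall 3 (r (i0.succAbove i')))
    rw [hqi, hqi]
    exact c3' hii

/-- Conjecture A for `n = 3` from the model `M`. -/
theorem conjA_three (HM : ModelM) : ConjA 3 := by
  intro K R r hR h0 h2 h1
  by_cases hbig : ∃ i0, R / 2 ≤ r i0
  · obtain ⟨i0, hi0⟩ := hbig
    obtain ⟨K', rfl⟩ : ∃ K', K = K' + 1 := ⟨K - 1, by have := i0.2; omega⟩
    refine fin_M HM hR r i0 h0 hi0 ?_ h2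
    intro i
    have hne : i0.succAbove i ≠ i0 := Fin.succAbove_ne i0 i
    rcases lt_or_gt_of_ne hne with h | h
    · have := h1 _ _ h
      linarith
    · exact h1 _ _ h
  · have h3 : ∀ i, r i < R / 2 := fun i => not_le.1 (not_exists.1 hbig i)
    exact packs_half 3 le_rfl K R r hR h0 h3 h2

/-- Conjecture A (sufficiency) for all `n ≥ 3` from the model `M`. -/
theorem conjA_all (HM : ModelM) (n : ℕ) (hn : 3 ≤ n) : ConjA n := by
  rcases Nat.lt_or_ge n 4 with h | h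
  · have : n = 3 := by omega
    subst this
    exact conjA_three HM
  · exact conjA_ge_four n h

end Vale.Agent.P209.H564
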