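import Vale.Agent.P209.H564.Shear
import Vale.Agent.P209.H564.FinCore

/-!
# P209, H564: the map `Theta`
-/

namespace Vale.Agent.P209.H564

open Vale.Agent.P209 Vale.Agent.P209.H578 Vale.Agent.P209.H684
open scoped ContDiff

/-- derivative of a product `h u * a θ` -/
lemma prod_hasFDerivAt {d : ℕ} {h : (Fin d → ℝ) → ℝ} {a : ℝ → ℝ} {q : ℝ × (Fin d → ℝ)}
    {h' : (Fin d → ℝ) →L[ℝ] ℝ} {a' : ℝ} (hh : HasFDerivAt h h' q.2) (ha : HasDerivAt a a' q.1) :
    ∃ L : ℝ × (Fin d → ℝ) →L[ℝ] ℝ, HasFDerivAt (fun q => h q.2 * a q.1) L q ∧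
      ∀ v, L v = h q.2 * (a' * v.1) + a q.1 * h' v.2 := by
  have h1 : HasFDerivAt (fun q : ℝ × (Fin d → ℝ) => h q.2)
      (h'.comp (ContinuousLinearMap.snd ℝ ℝ (Fin d → ℝ))) q :=
    HasFDerivAt.comp (g := h) q hh hasFDerivAt_snd
  have h2 : HasFDerivAt (fun q : ℝ × (Fin d → ℝ) => a q.1)
      (a' • (ContinuousLinearMap.fst ℝ ℝ (Fin d → ℝ))) q :=
    ha.comp_hasFDerivAt q hasFDerivAt_fst
  refine ⟨_, h1.mul h2, fun v => ?_⟩
  simp

/-- the generating function of `Theta` -/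
noncomputable def Gth {k : ℕ} (R : ℝ) (gt : (Fin (k + 2) → ℝ) → ℝ) (q : ℝ × (Fin (k + 2) → ℝ)) : ℝ :=
  LL R q.2 * (q.1 - Real.cos (4 * Real.pi * q.1) / (4 * Real.pi)) +
    gt q.2 * (Real.sin (8 * Real.pi * q.1) / (8 * Real.pi))

variable {k : ℕ} {R : ℝ} {V : Set (Fin (k + 2) → ℝ)} {gt : (Fin (k + 2) → ℝ) → ℝ}

lemma contDiff_LL : ContDiff ℝ ∞ (LL (k := k) R) := by
  unfold LL
  refine contDiff_const.sub (ContDiff.sum fun a _ => ?_)
  exact contDiff_const.mul (contDiff_apply ℝ ℝ a)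

lemma LL_hasFDerivAt (u : Fin (k + 2) → ℝ) : ∃ L : (Fin (k + 2) → ℝ) →L[ℝ] ℝ,
    HasFDerivAt (LL (k := k) R) L u ∧ ∀ a, L (Pi.single a 1) = -((cf (k := k) a.succ : ℤ) : ℝ) := by
  have h1 : ∀ a : Fin (k + 2), HasFDerivAt (fun u : Fin (k + 2) → ℝ =>
      ((cf (k := k) a.succ : ℤ) : ℝ) * u a) (((cf (k := k) a.succ : ℤ) : ℝ) •
        (ContinuousLinearMap.proj (R := ℝ) (φ := fun _ : Fin (k + 2) => ℝ) a)) u := fun a =>
    (hasFDerivAt_apply (𝕜 := ℝ) a u).const_mul _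
  have h2 : HasFDerivAt (LL (k := k) R) _ u :=
    (HasFDerivAt.fun_sum (u := Finset.univ) fun a _ => h1 a).const_sub R
  refine ⟨_, h2, fun a => ?_⟩
  simp only [ContinuousLinearMap.neg_apply, ContinuousLinearMap.sum_apply,
    ContinuousLinearMap.smul_apply, ContinuousLinearMap.proj_apply, smul_eq_mul]
  rw [Finset.sum_eq_single a]
  · simp
  · intro b _ hb
    rw [Pi.single_eq_of_ne hb, mul_zero]
  · intro h
    exact absurd (Finset.mem_univ a) h

lemma Gth_contDiffAt (hV : IsOpen V) (hgt : ContDiffOn ℝ ∞ gt V) {q : ℝ × (Fin (k + 2) → ℝ)}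
    (hq : q.2 ∈ V) : ContDiffAt ℝ ∞ (Gth R gt) q := by
  unfold Gth
  have h1 : ContDiffAt ℝ ∞ (fun q : ℝ × (Fin (k + 2) → ℝ) => gt q.2) q :=
    ContDiffAt.comp (g := gt) q (hgt.contDiffAt (hV.mem_nhds hq)) contDiffAt_snd
  have h2 : ContDiffAt ℝ ∞ (fun q : ℝ × (Fin (k + 2) → ℝ) => LL R q.2) q :=
    contDiff_LL.contDiffAt.comp q contDiffAt_snd
  refine (h2.mul ?_).add (h1.mul ?_)
  · refine contDiffAt_fst.sub (ContDiffAt.div_const ?_ _)
    exact Real.contDiff_cos.contDiffAt.comp q (contDiffAt_const.mul contDiffAt_fst)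
  · refine ContDiffAt.div_const ?_ _
    exact Real.contDiff_sin.contDiffAt.comp q (contDiffAt_const.mul contDiffAt_fst)

/-- the derivative of the generating function -/
lemma Gth_fderiv (hV : IsOpen V) (hgt : ContDiffOn ℝ ∞ gt V) {θ : ℝ} {u : Fin (k + 2) → ℝ}
    (hu : u ∈ V) :
    fderiv ℝ (Gth R gt) (θ, u) (1, 0) = LL R u * (1 + Real.sin (4 * Real.pi * θ)) +
      gt u * Real.cos (8 * Real.pi * θ) ∧
    ∀ a, fderiv ℝ (Gth R gt) (θ, u) (0, Pi.single a 1) =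
      -((cf (k := k) a.succ : ℤ) : ℝ) * (θ - Real.cos (4 * Real.pi * θ) / (4 * Real.pi)) +
      fderiv ℝ gt u (Pi.single a 1) * (Real.sin (8 * Real.pi * θ) / (8 * Real.pi)) := by
  have hpi := Real.pi_pos
  obtain ⟨L1, hL1, hL1a⟩ := LL_hasFDerivAt (k := k) (R := R) u
  have hg1 : HasFDerivAt gt (fderiv ℝ gt u) u :=
    ((hgt.contDiffAt (hV.mem_nhds hu)).differentiableAt (by simp)).hasFDerivAt
  have ha1 : HasDerivAt (fun θ : ℝ => θ - Real.cos (4 * Real.pi * θ) / (4 * Real.pi))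
      (1 + Real.sin (4 * Real.pi * θ)) θ := by
    have h1 : HasDerivAt (fun θ : ℝ => 4 * Real.pi * θ) (4 * Real.pi) θ := by
      simpa using (hasDerivAt_id θ).const_mul (4 * Real.pi)
    have h2 := (h1.cos).div_const (4 * Real.pi)
    have h3 := (hasDerivAt_id θ).sub h2
    refine h3.congr_deriv ?_
    field_simp
    ring
  have ha2 : HasDerivAt (fun θ : ℝ => Real.sin (8 * Real.pi * θ) / (8 * Real.pi))
      (Real.cos (8 * Real.pi * θ)) θ := by
    have h1 : HasDerivAt (fun θ : ℝ => 8 * Real.pi * θ) (8 * Real.pi) θ := by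
      simpa using (hasDerivAt_id θ).const_mul (8 * Real.pi)
    have h2 := (h1.sin).div_const (8 * Real.pi)
    refine h2.congr_deriv ?_
    field_simp
  obtain ⟨M1, hM1, hM1v⟩ := prod_hasFDerivAt (q := (θ, u)) hL1 ha1
  obtain ⟨M2, hM2, hM2v⟩ := prod_hasFDerivAt (q := (θ, u)) hg1 ha2
  have h1 : fderiv ℝ (Gth R gt) (θ, u) = M1 + M2 := (hM1.add hM2).fderiv
  rw [h1]
  refine ⟨?_, fun a => ?_⟩
  · rw [ContinuousLinearMap.add_apply, hM1v, hM2v]
    simp only [mul_one, map_zero, mul_zero, add_zero]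
  · rw [ContinuousLinearMap.add_apply, hM1v, hM2v]
    simp only [mul_zero, zero_add, hL1a]
    ring

lemma sin_shift4 (θ : ℝ) (l : ℤ) :
    Real.sin (4 * Real.pi * (θ + l)) = Real.sin (4 * Real.pi * θ) := by
  have h : 4 * Real.pi * (θ + l) = 4 * Real.pi * θ + ((2 * l : ℤ) : ℝ) * (2 * Real.pi) := by
    push_cast; ring
  rw [h, Real.sin_add_int_mul_two_pi]

lemma cos_shift4 (θ : ℝ) (l : ℤ) :
    Real.cos (4 * Real.pi * (θ + l)) = Real.cos (4 * Real.pi * θ) := by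
  have h : 4 * Real.pi * (θ + l) = 4 * Real.pi * θ + ((2 * l : ℤ) : ℝ) * (2 * Real.pi) := by
    push_cast; ring
  rw [h, Real.cos_add_int_mul_two_pi]

lemma sin_shift8 (θ : ℝ) (l : ℤ) :
    Real.sin (8 * Real.pi * (θ + l)) = Real.sin (8 * Real.pi * θ) := by
  have h : 8 * Real.pi * (θ + l) = 8 * Real.pi * θ + ((4 * l : ℤ) : ℝ) * (2 * Real.pi) := by
    push_cast; ring
  rw [h, Real.sin_add_int_mul_two_pi]

lemma cos_shift8 (θ : ℝ) (l : ℤ) :
    Real.cos (8 * Real.pi * (θ + l)) = Real.cos (8 * Real.pi * θ) := by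
  have h : 8 * Real.pi * (θ + l) = 8 * Real.pi * θ + ((4 * l : ℤ) : ℝ) * (2 * Real.pi) := by
    push_cast; ring
  rw [h, Real.cos_add_int_mul_two_pi]

/-- the shift of `p` -/
noncomputable def sft (R : ℝ) (gt : (Fin (k + 2) → ℝ) → ℝ) (θ : ℝ) (u : Fin (k + 2) → ℝ) : ℝ :=
  LL R u * (1 + Real.sin (4 * Real.pi * θ)) + gt u * Real.cos (8 * Real.pi * θ)

/-- the rotation of the slot `a` -/
noncomputable def rtn (gt : (Fin (k + 2) → ℝ) → ℝ) (a : Fin (k + 2)) (θ : ℝ)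
    (u : Fin (k + 2) → ℝ) : ℝ :=
  -((cf (k := k) a.succ : ℤ) : ℝ) * (θ - Real.cos (4 * Real.pi * θ) / (4 * Real.pi)) +
      fderiv ℝ gt u (Pi.single a 1) * (Real.sin (8 * Real.pi * θ) / (8 * Real.pi))

lemma sft_add (θ : ℝ) (u : Fin (k + 2) → ℝ) (l : ℤ) : sft R gt (θ + l) u = sft R gt θ u := by
  unfold sft
  rw [sin_shift4, cos_shift8]

lemma rtn_add (a : Fin (k + 2)) (θ : ℝ) (u : Fin (k + 2) → ℝ) (l : ℤ) :
    rtn gt a (θ + l) u = rtn gt a θ u - ((cf (k := k) a.succ * l : ℤ) : ℝ) := by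
  unfold rtn
  rw [cos_shift4, sin_shift8]
  push_cast
  ring

/-- `Theta` -/
noncomputable def Tth (R : ℝ) (gt : (Fin (k + 2) → ℝ) → ℝ) (w : Fin (k + 3) → ℂ) :
    Fin (k + 3) → ℂ :=
  Fin.cons (w 0 + ((sft R gt (w 0).im (uu w) : ℝ) : ℂ))
    (fun a => ee (-(rtn gt a (w 0).im (uu w))) * w a.succ)

lemma Tth_zero (w : Fin (k + 3) → ℂ) :
    Tth R gt w 0 = w 0 + ((sft R gt (w 0).im (uu w) : ℝ) : ℂ) := rfl

lemma Tth_succ (w : Fin (k + 3) → ℂ) (a : Fin (k + 2)) :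
    Tth R gt w a.succ = ee (-(rtn gt a (w 0).im (uu w))) * w a.succ := rfl

lemma Tth_eq (hV : IsOpen V) (hgt : ContDiffOn ℝ ∞ gt V) {w : Fin (k + 3) → ℂ} (hw : uu w ∈ V) :
    Tth R gt w = shr (Gth R gt) w := by
  obtain ⟨h1, h2⟩ := Gth_fderiv (R := R) hV hgt (θ := (w 0).im) hw
  have hqw : qv w = ((w 0).im, uu w) := rfl
  funext i
  refine Fin.cases ?_ (fun a => ?_) i
  · rw [Tth_zero, shr_zero, hqw, h1]; rfl
  · rw [Tth_succ, shr_succ, hqw, h2]; rfl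

lemma uu_Tth (w : Fin (k + 3) → ℂ) : uu (Tth R gt w) = uu w := by
  funext a
  show Real.pi * ‖Tth R gt w a.succ‖ ^ 2 = Real.pi * ‖w a.succ‖ ^ 2
  rw [Tth_succ, norm_mul, ee_norm, one_mul]

lemma im_Tth (w : Fin (k + 3) → ℂ) : (Tth R gt w 0).im = (w 0).im := by
  rw [Tth_zero]; simp

lemma re_Tth (w : Fin (k + 3) → ℂ) :
    (Tth R gt w 0).re = (w 0).re + sft R gt (w 0).im (uu w) := by
  rw [Tth_zero]; simp

lemma Tth_inj {w w' : Fin (k + 3) → ℂ} (h : Tth R gt w = Tth R gt w') : w = w' := by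
  have hu : uu w = uu w' := by rw [← uu_Tth (R := R) (gt := gt) w, h, uu_Tth]
  have hi : (w 0).im = (w' 0).im := by rw [← im_Tth (R := R) (gt := gt) w, h, im_Tth]
  funext i
  refine Fin.cases ?_ (fun a => ?_) i
  · have h1 := congrFun h 0
    rw [Tth_zero, Tth_zero, hu, hi] at h1
    exact add_right_cancel h1
  · have h1 := congrFun h a.succ
    rw [Tth_succ, Tth_succ, hu, hi] at h1
    exact mul_left_cancel₀ (ee_ne_zero _) h1

/-- the translation of the angle -/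
noncomputable def trl (l : ℤ) (w : Fin (k + 3) → ℂ) : Fin (k + 3) → ℂ :=
  w + Pi.single 0 ((l : ℂ) * Complex.I)

lemma trl_zero (l : ℤ) (w : Fin (k + 3) → ℂ) : trl l w 0 = w 0 + (l : ℂ) * Complex.I := by
  unfold trl
  rw [Pi.add_apply, Pi.single_eq_same]

lemma trl_succ (l : ℤ) (w : Fin (k + 3) → ℂ) (a : Fin (k + 2)) : trl l w a.succ = w a.succ := by
  unfold trl
  rw [Pi.add_apply, Pi.single_eq_of_ne (Fin.succ_ne_zero a), add_zero]

lemma trl_im (l : ℤ) (w : Fin (k + 3) → ℂ) : (trl l w 0).im = (w 0).im + l := by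
  rw [trl_zero]; simp

lemma uu_trl (l : ℤ) (w : Fin (k + 3) → ℂ) : uu (trl l w) = uu w := uu_shift w _

lemma Fr_zero' (m : ℤ) (w : Fin (k + 3) → ℂ) : Fr R m w 0 = w 0 - ((m * Lf R w : ℝ) : ℂ) := by
  unfold Fr
  rw [if_pos rfl]

lemma Fr_succ' (m : ℤ) (w : Fin (k + 3) → ℂ) (a : Fin (k + 2)) :
    Fr R m w a.succ = ee (-(m * (cf (k := k) a.succ) * (w 0).im)) * w a.succ := by
  unfold Fr
  rw [if_neg (Fin.succ_ne_zero a)]

lemma Fr_im (m : ℤ) (w : Fin (k + 3) → ℂ) : (Fr R m w 0).im = (w 0).im := by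
  rw [Fr_zero']; simp

/-- `Theta` commutes with the deck transformations -/
lemma Tth_move (w : Fin (k + 3) → ℂ) (m l : ℤ) :
    Tth R gt (Fr R m (trl l w)) = Fr R m (trl l (Tth R gt w)) := by
  have hL1 : Lf R (trl l w) = Lf R w := by rw [Lf_eq, Lf_eq, uu_trl]
  have hL2 : Lf R (trl l (Tth R gt w)) = Lf R w := by rw [Lf_eq, Lf_eq, uu_trl, uu_Tth]
  funext i
  refine Fin.cases ?_ (fun a => ?_) i
  · rw [Tth_zero, Fr_im, trl_im, uu_Fr, uu_trl, sft_add, Fr_zero', Fr_zero', hL1, hL2, trl_zero,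
      trl_zero, Tth_zero]
    ring
  · rw [Tth_succ, Fr_im, trl_im, uu_Fr, uu_trl, rtn_add, Fr_succ', Fr_succ', trl_succ, trl_succ,
      Tth_succ, trl_im, trl_im, im_Tth, ← mul_assoc, ← mul_assoc, ← ee_add, ← ee_add]
    congr 1
    rw [← ee_add_int (_ + -(rtn gt a (w 0).im (uu w))) (cf (k := k) a.succ * l)]
    congr 1
    ring

lemma ee_re (t : ℝ) : (ee t).re = Real.cos (2 * Real.pi * t) := by
  unfold ee
  rw [Complex.exp_ofReal_mul_I_re]

lemma ee_im (t : ℝ) : (ee t).im = Real.sin (2 * Real.pi * t) := by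
  unfold ee
  rw [Complex.exp_ofReal_mul_I_im]

theorem exists_theta (k : ℕ) (R : ℝ) (V : Set (Fin (k + 2) → ℝ)) (gt : (Fin (k + 2) → ℝ) → ℝ)
    (hV : IsOpen V) (hgt : ContDiffOn ℝ ∞ gt V) :
    ∃ T : (Fin (k + 3) → ℂ) → (Fin (k + 3) → ℂ), ThetaSpec R V gt T := by
  have hVo : IsOpen {w : Fin (k + 3) → ℂ | uu w ∈ V} := hV.preimage continuous_uu
  have hev : ∀ w : Fin (k + 3) → ℂ, uu w ∈ V → Tth R gt =ᶠ[nhds w] shr (Gth R gt) := fun w hw => by
    filter_upwards [hVo.mem_nhds hw] with y hy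
    exact Tth_eq hV hgt hy
  refine ⟨Tth R gt, ?_, ?_, uu_Tth, ?_, ?_⟩
  · intro w hw
    refine ContDiffAt.contDiffWithinAt ?_
    exact (shr_contDiffAt (Gth_contDiffAt hV hgt (q := qv w) hw)).congr_of_eventuallyEq (hev w hw)
  · intro w hw v v'
    rw [(hev w hw).fderiv_eq]
    exact shr_omega (Gth_contDiffAt hV hgt (q := qv w) hw) v v'
  · intro w w' m l h
    refine Tth_inj (R := R) (gt := gt) ?_
    rw [h]
    exact (Tth_move w (4 * m) l).symm
  · intro w hL h1 h2 m hm hcase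
    rw [re_Tth] at hm
    have hLf : Lf R w = LL R (uu w) := Lf_eq R w
    obtain ⟨θ, hθ⟩ : ∃ θ : ℝ, θ = (w 0).im := ⟨_, rfl⟩
    rw [im_Tth, ← hθ] at hcase
    unfold sft at hm
    rw [← hθ, ← hLf] at hm
    have e4 : 4 * Real.pi * θ = 2 * Real.pi * (2 * θ) := by ring
    have e8 : 8 * Real.pi * θ = 2 * (2 * Real.pi * (2 * θ)) := by ring
    rcases hcase with ⟨hm2, he⟩ | ⟨hm2, he⟩
    · have hs : Real.sin (4 * Real.pi * θ) = -1 := by
        rw [e4, ← ee_im, he]; simp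
      have hc : Real.cos (4 * Real.pi * θ) = 0 := by
        rw [e4, ← ee_re, he]; simp
      have hc8 : Real.cos (8 * Real.pi * θ) = -1 := by
        rw [e8, ← e4, Real.cos_two_mul, hc]; norm_num
      rw [hs, hc8] at hm
      obtain ⟨n, hn⟩ := hm2
      have h3 : (m : ℝ) < 0 := by
        by_contra hcon
        have : (0 : ℝ) ≤ m := not_lt.1 hcon
        nlinarith
      have h4 : (-2 : ℝ) < m := by
        by_contra hcon
        have : (m : ℝ) ≤ -2 := not_lt.1 hcon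
        nlinarith
      have h5 : m < 0 := by exact_mod_cast h3
      have h6 : -2 < m := by exact_mod_cast h4
      omega
    · have hs : Real.sin (4 * Real.pi * θ) = 1 := by
        rw [e4, ← ee_im, he]; simp
      have hc : Real.cos (4 * Real.pi * θ) = 0 := by
        rw [e4, ← ee_re, he]; simp
      have hc8 : Real.cos (8 * Real.pi * θ) = -1 := by
        rw [e8, ← e4, Real.cos_two_mul, hc]; norm_num
      rw [hs, hc8] at hm
      obtain ⟨n, hn⟩ := hm2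
      have h3 : (m : ℝ) < 1 := by
        by_contra hcon
        have : (1 : ℝ) ≤ m := not_lt.1 hcon
        nlinarith
      have h4 : (-1 : ℝ) < m := by
        by_contra hcon
        have : (m : ℝ) ≤ -1 := not_lt.1 hcon
        nlinarith
      have h5 : m < 1 := by exact_mod_cast h3
      have h6 : -1 < m := by exact_mod_cast h4
      omega

end Vale.Agent.P209.H564
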