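import Vale.Agent.P209.H564.Fin
import Vale.Agent.P209.H564.Theta
import Vale.Agent.P209.H684.Gate2

/-!
# P209: Conjecture A in every dimension `n ≥ 4`, and for small balls in dimension `n = 3`
-/

namespace Vale.Agent.P209.H564

open Vale.Agent.P209

theorem parts : Parts where
  gam := fun k R c hc _ => H684.exists_gam k R c hc
  theta := fun k R V gt hV hgt => exists_theta k R V gt hV hgt

/-- Conjecture A (sufficiency) for all `n ≥ 4`. -/
theorem conjA_ge_four (n : ℕ) (hn : 4 ≤ n) : ConjA n := by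
  obtain ⟨k, rfl⟩ : ∃ k, n = k + 4 := ⟨n - 4, by omega⟩
  exact conjA_four parts k

/-- Conjecture A (sufficiency) for all `n ≥ 3` and radii smaller than half of the big one. -/
theorem packs_half (n : ℕ) (hn : 3 ≤ n) (K : ℕ) (R : ℝ) (r : Fin K → ℝ) (hR : 0 < R)
    (h0 : ∀ i, 0 < r i) (h1 : ∀ i, r i < R / 2) (h2 : ∑ i, r i ^ n < R ^ n) :
    Packs (openBall n R) r := by
  obtain ⟨k, rfl⟩ : ∃ k, n = k + 3 := ⟨n - 3, by omega⟩
  exact packs_small parts k K R r hR h0 (fun i => by linarith [h1 i]) h2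

end Vale.Agent.P209.H564
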