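import Vale.Agent.P209.H687.Defs

/-!
# P209, REM, row MI: the middle chart is injective on real angles
-/

set_option linter.all false

namespace Vale.Agent.P209.H564

open Vale.Agent.P209 H684 H578 H721 H974 H686 H687
open Vale.Agent.P209.Strong hiding chi
open scoped ContDiff

/-! ### The gauge -/

theorem ph_norm {B : ℂ} (h : B ≠ 0) : ‖uph B‖ = 1 := by
  unfold uph
  rw [norm_mul, Complex.norm_real, norm_inv, norm_norm, mul_inv_cancel₀ (norm_ne_zero_iff.2 h)]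

theorem ph_conj_ne {B : ℂ} (h : B ≠ 0) : (starRingEnd ℂ) (uph B) ≠ 0 := by
  intro h0
  have h1 := ph_norm h
  rw [← RCLike.norm_conj, h0, norm_zero] at h1
  exact zero_ne_one h1

theorem ph_polar {z : ℂ} (hz : z ≠ 0) : z = ((‖z‖ : ℝ) : ℂ) * uph z := by
  unfold uph
  have h : ((‖z‖ : ℝ) : ℂ) ≠ 0 := by exact_mod_cast (norm_ne_zero_iff.2 hz)
  push_cast
  field_simp

theorem gau_inj' {R : ℝ} {X X' : Fin 3 → ℂ} (h2 : X 2 ≠ 0) (h2' : X' 2 ≠ 0)
    (hr : 0 < R - ar (X 0) - ar (X 1) - ar (X 2)) (hr' : 0 < R - ar (X' 0) - ar (X' 1) - ar (X' 2))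
    (h : gau R X = gau R X') : X = X' := by
  have hpi := Real.pi_pos
  have e0 : X 0 * (starRingEnd ℂ) (uph (X 2)) = X' 0 * (starRingEnd ℂ) (uph (X' 2)) :=
    congrFun h 0
  have e1 : X 1 * (starRingEnd ℂ) (uph (X 2)) = X' 1 * (starRingEnd ℂ) (uph (X' 2)) :=
    congrFun h 1
  have e2 : ((Real.sqrt ((R - ar (X 0) - ar (X 1) - ar (X 2)) / Real.pi) : ℝ) : ℂ) *
      (starRingEnd ℂ) (uph (X 2)) =
      ((Real.sqrt ((R - ar (X' 0) - ar (X' 1) - ar (X' 2)) / Real.pi) : ℝ) : ℂ) *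
      (starRingEnd ℂ) (uph (X' 2)) := congrFun h 2
  have n1 : ‖(starRingEnd ℂ) (uph (X 2))‖ = 1 := by rw [RCLike.norm_conj, ph_norm h2]
  have n2 : ‖(starRingEnd ℂ) (uph (X' 2))‖ = 1 := by rw [RCLike.norm_conj, ph_norm h2']
  have s1 : 0 < Real.sqrt ((R - ar (X 0) - ar (X 1) - ar (X 2)) / Real.pi) :=
    Real.sqrt_pos.2 (by positivity)
  have s2 : 0 < Real.sqrt ((R - ar (X' 0) - ar (X' 1) - ar (X' 2)) / Real.pi) :=
    Real.sqrt_pos.2 (by positivity)
  have e3 : Real.sqrt ((R - ar (X 0) - ar (X 1) - ar (X 2)) / Real.pi) =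
      Real.sqrt ((R - ar (X' 0) - ar (X' 1) - ar (X' 2)) / Real.pi) := by
    have h3 := congrArg norm e2
    rw [norm_mul, norm_mul, n1, n2, mul_one, mul_one, Complex.norm_real, Complex.norm_real,
      Real.norm_of_nonneg s1.le, Real.norm_of_nonneg s2.le] at h3
    exact h3
  have e4 : (starRingEnd ℂ) (uph (X 2)) = (starRingEnd ℂ) (uph (X' 2)) := by
    rw [e3] at e2
    exact mul_left_cancel₀ (by exact_mod_cast s2.ne') e2
  have e5 : uph (X 2) = uph (X' 2) := (starRingEnd ℂ).injective e4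
  rw [e4] at e0 e1
  have f0 : X 0 = X' 0 := mul_right_cancel₀ (ph_conj_ne h2') e0
  have f1 : X 1 = X' 1 := mul_right_cancel₀ (ph_conj_ne h2') e1
  have e6 : (R - ar (X 0) - ar (X 1) - ar (X 2)) / Real.pi =
      (R - ar (X' 0) - ar (X' 1) - ar (X' 2)) / Real.pi := by
    have h3 : Real.sqrt ((R - ar (X 0) - ar (X 1) - ar (X 2)) / Real.pi) ^ 2 =
      Real.sqrt ((R - ar (X' 0) - ar (X' 1) - ar (X' 2)) / Real.pi) ^ 2 := by rw [e3]
    rwa [Real.sq_sqrt (by positivity), Real.sq_sqrt (by positivity)] at h3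
  have e7 : ar (X 2) = ar (X' 2) := by
    rw [f0, f1] at e6
    have := (div_left_inj' hpi.ne').1 e6
    linarith
  have e8 : ‖X 2‖ = ‖X' 2‖ := by
    unfold ar at e7
    have h3 := mul_left_cancel₀ hpi.ne' e7
    exact (pow_left_inj₀ (norm_nonneg _) (norm_nonneg _) two_ne_zero).1 h3
  have f2 : X 2 = X' 2 := by
    rw [ph_polar h2, ph_polar h2', e8, e5]
  funext j
  fin_cases j
  · exact f0
  · exact f1
  · exact f2

/-! ### The function `qs` -/

/-- the derivative of `qs` in the first variable does not vanish -/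
theorem qs_deriv {η : ℝ} {t : ℝ → ℝ} {qs : ℝ × ℝ → ℝ} (ht : StepQ η t) (hq : InvQ t qs)
    {Q Λ : ℝ} (hΛ : 0 < Λ) :
    fderiv ℝ qs (Q, Λ) (1, 0) * (1 + deriv t (qs (Q, Λ)) * Λ) = 1 := by
  have h1 : HasFDerivAt qs (fderiv ℝ qs (Q, Λ)) (Q, Λ) :=
    ((hq.smooth Q Λ hΛ).differentiableAt (by simp)).hasFDerivAt
  obtain ⟨q, hqd⟩ : ∃ q, q = qs (Q, Λ) := ⟨_, rfl⟩
  have hQ : q + t q * Λ = Q := by rw [hqd]; exact hq.eq Q Λ hΛ.le
  have h2 : HasDerivAt t (deriv t q) q :=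
    ((ht.smooth.differentiable (by simp)) q).hasDerivAt
  have h3 : HasDerivAt (fun x => ((x + t x * Λ, Λ) : ℝ × ℝ)) ((1 + deriv t q * Λ, 0) : ℝ × ℝ) q :=
    ((hasDerivAt_id q).add (h2.mul_const Λ)).prodMk (hasDerivAt_const q Λ)
  have h4 : HasDerivAt (fun x => qs (x + t x * Λ, Λ))
      (fderiv ℝ qs (Q, Λ) (1 + deriv t q * Λ, 0)) q := by
    have h5 : HasFDerivAt qs (fderiv ℝ qs (Q, Λ)) (q + t q * Λ, Λ) := by rw [hQ]; exact h1
    exact h5.comp_hasDerivAt q h3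
  have h6 : HasDerivAt (fun x => qs (x + t x * Λ, Λ)) 1 q := by
    have h7 : (fun x => qs (x + t x * Λ, Λ)) = fun x => x := funext fun x => hq.uniq x Λ hΛ.le
    rw [h7]
    exact hasDerivAt_id q
  have h8 := h4.unique h6
  have h9 : ((1 + deriv t q * Λ, 0) : ℝ × ℝ) = (1 + deriv t q * Λ) • ((1 : ℝ), (0 : ℝ)) := by
    refine Prod.ext ?_ ?_ <;> simp
  rw [h9, map_smul, smul_eq_mul] at h8
  rw [← hqd]
  linarith

/-! ### The point before the lift -/

section Pre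

variable {R c m η : ℝ} (D : Dat R c m η) {v : Fin 3 → ℂ}

/-- the input of the gate of `z_1` -/
noncomputable def gin (v : Fin 3 → ℂ) : ℂ × ℂ :=
  (((ar (D.τ2 (v 2)) + ar (v 1) - c : ℝ) : ℂ) +
      ((D.φ2 (v 2) - (v 0).im : ℝ) : ℂ) * Complex.I, ee (-(D.φ2 (v 2))) * v 1)

theorem gin_re : (gin D v).1.re = ar (D.τ2 (v 2)) + ar (v 1) - c := a1_re _ _

theorem gin_im : (gin D v).1.im = D.φ2 (v 2) - (v 0).im := a1_im _ _

theorem ar_gin : ar (gin D v).2 = ar (v 1) := ar_mul_of_norm_one (ee_norm _)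

theorem norm_gin : ‖(gin D v).2‖ = ‖v 1‖ := by
  show ‖ee (-(D.φ2 (v 2))) * v 1‖ = ‖v 1‖
  rw [norm_mul, ee_norm, one_mul]

/-- the point before the lift -/
noncomputable def YY (v : Fin 3 → ℂ) : Fin 3 → ℂ := preT R c D.τ2 D.φ2 D.g1 v

theorem YY_0 : YY D v 0 = (((v 0).re + (R + c) / 2 + (ar (D.τ2 (v 2)) + ar (v 1) - c) : ℝ) : ℂ) +
      (((v 0).im : ℝ) : ℂ) * Complex.I := rfl
theorem YY_re : (YY D v 0).re = (v 0).re + (R + c) / 2 + (ar (D.τ2 (v 2)) + ar (v 1) - c) :=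
  a1_re _ _
theorem YY_im : (YY D v 0).im = (v 0).im := a1_im _ _
theorem YY_1 : YY D v 1 = (D.g1 (gin D v)).1 := rfl
theorem YY_2 : YY D v 2 = (D.g1 (gin D v)).2 := rfl

/-- the areas before the lift -/
structure PAr (v : Fin 3 → ℂ) : Prop where
  n1 : ‖v 1‖ < D.r
  n2 : ‖v 2‖ < D.r
  a_gt : D.ε1 < ar (D.τ2 (v 2))
  a_le : ar (D.τ2 (v 2)) ≤ ar (v 2) + m / 100
  diff : ar (YY D v 1) - ar (YY D v 2) = ar (D.τ2 (v 2)) + ar (v 1) - c
  sum : ar (YY D v 1) + ar (YY D v 2) ≤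
    2 * ar (v 1) + |ar (D.τ2 (v 2)) + ar (v 1) - c| + D.ε1
  pos : 0 < ar (YY D v 1)
  lam : c + 3 * ar (YY D v 1) - ar (YY D v 2) =
    2 * ar (YY D v 1) + ar (D.τ2 (v 2)) + ar (v 1)
  rest : 99 * m / 100 ≤ R - ar (YY D v 1) - ar (YY D v 2)

theorem pAr (hH : Hyp R c m η) (hv : uu v ∈ Vm R c m) : PAr D v := by
  obtain ⟨-, -, h3, h4⟩ := hv
  have h3' : ar (v 1) < c - m := h3
  have h4' : ar (v 1) + ar (v 2) < (R + c) / 3 - m := h4
  have p1 := ar_nonneg (v 1)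
  have p2 := ar_nonneg (v 2)
  obtain ⟨k1, k2, k3, k4, k5⟩ := hH
  have hε := D.hε1
  have hε' := D.hε1'
  have n1 : ‖v 1‖ < D.r := D.hr _ (by linarith)
  have n2 : ‖v 2‖ < D.r := D.hr _ (by linarith)
  have ng : ‖(gin D v).2‖ < D.r := by rw [norm_gin]; exact n1
  have a1 := D.low2 (v 2) (by linarith)
  have a2 := D.og2.tau_ar (v 2) n2
  have hd := D.og1.diff (gin D v) ng
  have hs := D.og1.sum (gin D v) ng
  rw [gin_re] at hd hs
  rw [ar_gin] at hs
  have hone : D.s1 (gin D v).1.re = 1 := D.hs1.one _ (by rw [gin_re]; linarith)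
  have hp := D.og1.pos1 (gin D v) ng hone
  have hp2 := ar_pos.2 (D.og1.tau_ne _ ng)
  have hdiff : ar (YY D v 1) - ar (YY D v 2) = ar (D.τ2 (v 2)) + ar (v 1) - c := hd
  have hsum : ar (YY D v 1) + ar (YY D v 2) ≤
    2 * ar (v 1) + |ar (D.τ2 (v 2)) + ar (v 1) - c| + D.ε1 := hs
  have hpos : 0 < ar (YY D v 1) := lt_of_lt_of_le hp2 hp
  refine ⟨n1, n2, a1, a2, hdiff, hsum, hpos, by linarith, ?_⟩
  rcases le_total 0 (ar (D.τ2 (v 2)) + ar (v 1) - c) with h | h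
  · rw [abs_of_nonneg h] at hsum
    linarith
  · rw [abs_of_nonpos h] at hsum
    linarith

/-- `q*` -/
noncomputable def qst (v : Fin 3 → ℂ) : ℝ :=
  D.qs ((v 0).re, c + 3 * ar (YY D v 1) - ar (YY D v 2))

theorem gq_YY (h : PAr D v) : gq R c D.qs (qq (YY D v)) =
    (R - ar (YY D v 1) - ar (YY D v 2)) / 2 + qst D v := by
  unfold gq qst
  have e1 : (qq (YY D v)).2 0 = ar (YY D v 1) := rfl
  have e2 : (qq (YY D v)).2 1 = ar (YY D v 2) := rfl
  have e3 : (qq (YY D v)).1 = (YY D v 0).re := rfl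
  rw [e1, e2, e3, YY_re]
  have hd := h.diff
  congr 3
  linarith

theorem StepQ_left (h : StepQ η D.t) {q : ℝ} (hq : q ≤ -(η / 2)) : D.t q = -(1 / 2) := by
  have h1 := h.odd q
  have h2 := h.one (-q) (by linarith)
  linarith

/-- after the lift `x_1 > 0` and `x_3 > 0` -/
theorem x1_pos (hH : Hyp R c m η) (h : PAr D v) (hk : kap R c v < 0) :
    0 < (R - ar (YY D v 1) - ar (YY D v 2)) / 2 + qst D v := by
  have hr := h.rest
  have hd := h.diff
  have ha := h.a_gt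
  have hε := D.hε1
  have hl := h.lam
  have hp := h.pos
  have hpv := ar_nonneg (v 1)
  obtain ⟨k1, k2, k3, k4, k5⟩ := hH
  by_cases hq : qst D v ≤ -(η / 2)
  · have h1 := StepQ_left D D.ht hq
    have h2 := D.hqs.eq (v 0).re (c + 3 * ar (YY D v 1) - ar (YY D v 2)) (by linarith)
    have h3 : D.qs ((v 0).re, c + 3 * ar (YY D v 1) - ar (YY D v 2)) = qst D v := rfl
    rw [h3, h1] at h2
    unfold kap at hk
    linarith
  · push Not at hq
    linarith

theorem x3_pos (hH : Hyp R c m η) (h : PAr D v) (hk : kah R c v < 0) :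
    0 < (R - ar (YY D v 1) - ar (YY D v 2)) / 2 - qst D v := by
  have hr := h.rest
  have hd := h.diff
  have ha := h.a_gt
  have hε := D.hε1
  have hl := h.lam
  have hp := h.pos
  have hpv := ar_nonneg (v 1)
  obtain ⟨k1, k2, k3, k4, k5⟩ := hH
  by_cases hq : η / 2 ≤ qst D v
  · have h1 := D.ht.one _ hq
    have h2 := D.hqs.eq (v 0).re (c + 3 * ar (YY D v 1) - ar (YY D v 2)) (by linarith)
    have h3 : D.qs ((v 0).re, c + 3 * ar (YY D v 1) - ar (YY D v 2)) = qst D v := rfl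
    rw [h3, h1] at h2
    unfold kah at hk
    linarith
  · push Not at hq
    linarith

/-- the function `gq` is smooth and strictly increasing in the first variable -/
theorem gq_Fp (h : PAr D v) : ContDiffAt ℝ ∞ (gq R c D.qs) (qq (YY D v)) ∧
    Fp (gq R c D.qs) (qq (YY D v)) *
      (1 + deriv D.t (qst D v) * (c + 3 * ar (YY D v 1) - ar (YY D v 2))) = 1 := by
  obtain ⟨Λ, hΛ⟩ : ∃ Λ, Λ = c + 3 * ar (YY D v 1) - ar (YY D v 2) := ⟨_, rfl⟩
  have hΛ0 : 0 < Λ := by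
    rw [hΛ, h.lam]
    have h1 := h.pos
    have h2 := h.a_gt
    have h3 := D.hε1
    have h4 := ar_nonneg (v 1)
    linarith
  obtain ⟨A, hA⟩ : ∃ A : ℝ × (Fin 2 → ℝ) → ℝ × ℝ, A = fun q =>
    (q.1 - (R + c) / 2 - q.2 0 + q.2 1, c + 3 * q.2 0 - q.2 1) := ⟨_, rfl⟩
  have hAq : A (qq (YY D v)) = ((v 0).re, Λ) := by
    rw [hA, hΛ]
    have e1 : (qq (YY D v)).2 0 = ar (YY D v 1) := rfl
    have e2 : (qq (YY D v)).2 1 = ar (YY D v 2) := rfl
    have e3 : (qq (YY D v)).1 = (YY D v 0).re := rfl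
    simp only [e1, e2, e3, YY_re]
    have hd := h.diff
    refine Prod.ext ?_ rfl
    simp only
    linarith
  have c0 : ContDiff ℝ ∞ fun q : ℝ × (Fin 2 → ℝ) => q.2 0 :=
    (contDiff_apply ℝ ℝ (0 : Fin 2)).comp contDiff_snd
  have c1 : ContDiff ℝ ∞ fun q : ℝ × (Fin 2 → ℝ) => q.2 1 :=
    (contDiff_apply ℝ ℝ (1 : Fin 2)).comp contDiff_snd
  have hAc : ContDiff ℝ ∞ A := by
    rw [hA]
    exact (((contDiff_fst.sub contDiff_const).sub c0).add c1).prodMk
      ((contDiff_const.add (contDiff_const.mul c0)).sub c1)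
  have hgq : gq R c D.qs = fun q => (R - q.2 0 - q.2 1) / 2 + D.qs (A q) := by
    funext q
    rw [hA]
    rfl
  have hqs : ContDiffAt ℝ ∞ D.qs (A (qq (YY D v))) := by
    rw [hAq]
    exact D.hqs.smooth _ _ hΛ0
  have hB : ContDiff ℝ ∞ fun q : ℝ × (Fin 2 → ℝ) => (R - q.2 0 - q.2 1) / 2 :=
    ((contDiff_const.sub c0).sub c1).div_const 2
  have hC : ContDiffAt ℝ ∞ (fun q => D.qs (A q)) (qq (YY D v)) :=
    ContDiffAt.comp (g := D.qs) (f := A) _ hqs hAc.contDiffAt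
  refine ⟨by rw [hgq]; exact hB.contDiffAt.add hC, ?_⟩
  have hline : HasDerivAt (fun x : ℝ => (qq (YY D v)) + x • ((1 : ℝ), (0 : Fin 2 → ℝ)))
      ((1 : ℝ), (0 : Fin 2 → ℝ)) 0 := by
    have := ((hasDerivAt_id (0 : ℝ)).smul_const ((1 : ℝ), (0 : Fin 2 → ℝ))).const_add
      (qq (YY D v))
    simpa using this
  have hq0 : qq (YY D v) + (0 : ℝ) • ((1 : ℝ), (0 : Fin 2 → ℝ)) = qq (YY D v) := by simp
  have hF : HasDerivAt (fun x : ℝ => gq R c D.qs (qq (YY D v) + x • ((1 : ℝ), (0 : Fin 2 → ℝ))))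
      (Fp (gq R c D.qs) (qq (YY D v))) 0 := by
    have h1 : HasFDerivAt (gq R c D.qs) (fderiv ℝ (gq R c D.qs) (qq (YY D v)))
        (qq (YY D v) + (0 : ℝ) • ((1 : ℝ), (0 : Fin 2 → ℝ))) := by
      rw [hq0]
      have : ContDiffAt ℝ ∞ (gq R c D.qs) (qq (YY D v)) := by
        rw [hgq]; exact hB.contDiffAt.add hC
      exact (this.differentiableAt (by simp)).hasFDerivAt
    exact h1.comp_hasDerivAt 0 hline
  have hG : HasDerivAt (fun x : ℝ => gq R c D.qs (qq (YY D v) + x • ((1 : ℝ), (0 : Fin 2 → ℝ))))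
      (fderiv ℝ D.qs ((v 0).re, Λ) (1, 0)) 0 := by
    have h1 : (fun x : ℝ => gq R c D.qs (qq (YY D v) + x • ((1 : ℝ), (0 : Fin 2 → ℝ)))) =
        fun x : ℝ => (R - ar (YY D v 1) - ar (YY D v 2)) / 2 + D.qs ((v 0).re + x, Λ) := by
      funext x
      rw [hgq]
      have e1 : (qq (YY D v) + x • ((1 : ℝ), (0 : Fin 2 → ℝ))).2 0 = ar (YY D v 1) := by
        show ar (YY D v 1) + x * 0 = ar (YY D v 1)
        ring
      have e2 : (qq (YY D v) + x • ((1 : ℝ), (0 : Fin 2 → ℝ))).2 1 = ar (YY D v 2) := by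
        show ar (YY D v 2) + x * 0 = ar (YY D v 2)
        ring
      have e3 : (qq (YY D v) + x • ((1 : ℝ), (0 : Fin 2 → ℝ))).1 = (YY D v 0).re + x := by
        show (YY D v 0).re + x * 1 = (YY D v 0).re + x
        ring
      have e4 : A (qq (YY D v) + x • ((1 : ℝ), (0 : Fin 2 → ℝ))) = ((v 0).re + x, Λ) := by
        have h3 := congrArg Prod.fst hAq
        have h4 := congrArg Prod.snd hAq
        rw [hA] at h3 h4 ⊢
        simp only [e1, e2, e3]
        have e5 : (qq (YY D v)).2 0 = ar (YY D v 1) := rfl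
        have e6 : (qq (YY D v)).2 1 = ar (YY D v 2) := rfl
        have e7 : (qq (YY D v)).1 = (YY D v 0).re := rfl
        simp only [e5, e6, e7] at h3 h4
        refine Prod.ext ?_ h4
        simp only
        linarith
      simp only [e1, e2, e4]
    rw [h1]
    have h5 : HasDerivAt (fun x : ℝ => (((v 0).re + x, Λ) : ℝ × ℝ)) ((1 : ℝ), (0 : ℝ)) 0 :=
      ((hasDerivAt_id (0 : ℝ)).const_add (v 0).re).prodMk (hasDerivAt_const 0 Λ)
    have h6 : HasFDerivAt D.qs (fderiv ℝ D.qs ((v 0).re, Λ)) ((v 0).re + 0, Λ) := by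
      rw [add_zero]
      exact ((D.hqs.smooth _ _ hΛ0).differentiableAt (by simp)).hasFDerivAt
    exact (h6.comp_hasDerivAt 0 h5).const_add _
  rw [hF.unique hG, ← hΛ]
  have h7 : qst D v = D.qs ((v 0).re, Λ) := by rw [hΛ]; rfl
  rw [h7]
  exact qs_deriv D.ht D.hqs hΛ0

/-- the point after the lift -/
noncomputable def WW (v : Fin 3 → ℂ) : Fin 3 → ℂ := clift (gq R c D.qs) (YY D v)

theorem cM_eq (v : Fin 3 → ℂ) : D.cM v = gau R (ph0 (WW D v)) := rfl

theorem aM_eq (v : Fin 3 → ℂ) : D.aM v = (WW D v 0).im := rfl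

theorem WW_re (h : PAr D v) : (WW D v 0).re =
    (R - ar (YY D v 1) - ar (YY D v 2)) / 2 + qst D v := by
  rw [← gq_YY D h]
  exact clift_re _ _

theorem ar_WW_1 : ar (WW D v 1) = ar (YY D v 1) := ar_mul_of_norm_one (ee_norm _)
theorem ar_WW_2 : ar (WW D v 2) = ar (YY D v 2) := ar_mul_of_norm_one (ee_norm _)

/-- the areas of the middle chart in the gauge `Z_3 > 0` -/
theorem ph0_ar (hH : Hyp R c m η) (h : PAr D v) (hk : kap R c v < 0) :
    ar (ph0 (WW D v) 0) = ar (YY D v 2) ∧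
    ar (ph0 (WW D v) 1) = (R - ar (YY D v 1) - ar (YY D v 2)) / 2 + qst D v ∧
    ar (ph0 (WW D v) 2) = ar (YY D v 1) := by
  refine ⟨ar_WW_2 D, ?_, ar_WW_1 D⟩
  have h1 := x1_pos D hH h hk
  have h2 : ar (phiA (WW D v 0)) = (WW D v 0).re := ar_phiA (by rw [WW_re D h]; exact h1)
  rw [WW_re D h] at h2
  exact h2

/-- injectivity before the lift -/
theorem YY_inj {v' : Fin 3 → ℂ} (h : PAr D v) (h' : PAr D v') (he : YY D v = YY D v') :
    v = v' := by
  have e0 := congrFun he 0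
  have e1 := congrFun he 1
  have e2 := congrFun he 2
  have hg : D.g1 (gin D v) = D.g1 (gin D v') := Prod.ext e1 e2
  obtain ⟨k, hk⟩ := D.og1.inj _ _ (by rw [norm_gin]; exact h.n1) (by rw [norm_gin]; exact h'.n1) hg
  have i0 : (v 0).im = (v' 0).im := by
    have g1 := YY_im D (v := v)
    have g2 := YY_im D (v := v')
    rw [← g1, ← g2, e0]
  have k1 := congrArg Prod.fst hk
  have k2 : (gin D v').2 = (gin D v).2 := by rw [hk]
  have k3 : (gin D v').1.re = (gin D v).1.re := by rw [k1]; simp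
  have k4 : (gin D v').1.im = (gin D v).1.im + k := by rw [k1]; simp
  rw [gin_re, gin_re] at k3
  rw [gin_im, gin_im] at k4
  have f1 : D.φ2 (v' 2) = D.φ2 (v 2) + ((k : ℤ) : ℝ) := by linarith
  have f2 : v 1 = v' 1 := by
    have g1 : ee (-(D.φ2 (v' 2))) * v' 1 = ee (-(D.φ2 (v 2))) * v 1 := k2
    have g2 : -(D.φ2 (v' 2)) = -(D.φ2 (v 2)) + ((-k : ℤ) : ℝ) := by push_cast; linarith
    rw [g2, ee_add_int] at g1
    exact (mul_left_cancel₀ (ee_ne_zero _) g1).symm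
  have f3 : ar (D.τ2 (v' 2)) = ar (D.τ2 (v 2)) := by rw [f2] at k3; linarith
  have f4 : v 2 = v' 2 := by
    have g1 := D.og2.phi_eq (v 2) h.n2
    have g2 := D.og2.phi_eq (v' 2) h'.n2
    rw [f3, f1, phiA_shift, ee_int, one_mul, g1] at g2
    exact D.og2.tau.inj g2
  have f5 : v 0 = v' 0 := by
    refine Complex.ext ?_ i0
    have g1 := congrArg Complex.re e0
    rw [YY_re, YY_re, f3, f2] at g1
    linarith
  funext j
  fin_cases j
  · exact f5
  · exact f2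
  · exact f4

end Pre

/-- **Row MI.** -/
theorem rowMI : RowMI := by
  intro R c m η D hH v hv v' hv' he a1 a2 a1' a2'
  have hm := hH.1
  obtain ⟨hu, hk, hk2⟩ := hv
  obtain ⟨hu', hk', hk2'⟩ := hv'
  have h := pAr D hH hu
  have h' := pAr D hH hu'
  have hkn : kap R c v < 0 := by linarith
  have hkn' : kap R c v' < 0 := by linarith
  have hkh : kah R c v < 0 := by linarith
  have hkh' : kah R c v' < 0 := by linarith
  obtain ⟨b0, b1, b2⟩ := ph0_ar D hH h hkn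
  obtain ⟨b0', b1', b2'⟩ := ph0_ar D hH h' hkn'
  have r1 := x3_pos D hH h hkh
  have r1' := x3_pos D hH h' hkh'
  have x1 := x1_pos D hH h hkn
  have x1' := x1_pos D hH h' hkn'
  rw [cM_eq, cM_eq] at he
  have hX := gau_inj' (R := R) (X := ph0 (WW D v)) (X' := ph0 (WW D v'))
    (ar_pos.1 (by rw [b2]; exact h.pos)) (ar_pos.1 (by rw [b2']; exact h'.pos))
    (by rw [b0, b1, b2]; linarith) (by rw [b0', b1', b2']; linarith) he
  have w2 : WW D v 2 = WW D v' 2 := congrFun hX 0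
  have w1 : WW D v 1 = WW D v' 1 := congrFun hX 2
  have w0 : phiA (WW D v 0) = phiA (WW D v' 0) := congrFun hX 1
  have w0' : WW D v 0 = WW D v' 0 := by
    obtain ⟨e1, k, e2⟩ := phiA_inj (by rw [WW_re D h]; exact x1) (by rw [WW_re D h']; exact x1') w0
    refine Complex.ext e1 ?_
    rw [aM_eq] at a1 a2 a1' a2'
    have hk0 : k = 0 := by
      have g1 : (k : ℝ) < 1 := by linarith
      have g2 : (-1 : ℝ) < k := by linarith
      have g3 : k < 1 := by exact_mod_cast g1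
      have g4 : -1 < k := by exact_mod_cast g2
      omega
    rw [hk0] at e2
    push_cast at e2
    linarith
  have hW : WW D v = WW D v' := by
    funext j
    fin_cases j
    · exact w0'
    · exact w1
    · exact w2
  refine YY_inj D h h' (clift_inj ?_ ?_ hW)
  · intro h0
    have := (gq_Fp D h).2
    rw [h0, zero_mul] at this
    exact zero_ne_one this
  · intro hu3 hF
    rw [gq_YY D h, gq_YY D h'] at hF
    have e1 : ar (YY D v 1) = ar (YY D v' 1) := congrFun hu3 0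
    have e2 : ar (YY D v 2) = ar (YY D v' 2) := congrFun hu3 1
    have hq : qst D v = qst D v' := by rw [e1, e2] at hF; linarith
    have hlam : 0 ≤ c + 3 * ar (YY D v 1) - ar (YY D v 2) := by
      rw [h.lam]
      have := h.pos
      have := h.a_gt
      have := D.hε1
      have := ar_nonneg (v 1)
      linarith
    have hlam' : 0 ≤ c + 3 * ar (YY D v' 1) - ar (YY D v' 2) := by rw [← e1, ← e2]; exact hlam
    have q1 := D.hqs.eq (v 0).re _ hlam
    have q2 := D.hqs.eq (v' 0).re _ hlam'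
    have q3 : D.qs ((v 0).re, c + 3 * ar (YY D v 1) - ar (YY D v 2)) = qst D v := rfl
    have q4 : D.qs ((v' 0).re, c + 3 * ar (YY D v' 1) - ar (YY D v' 2)) = qst D v' := rfl
    rw [q3] at q1
    rw [q4, ← hq, ← e1, ← e2] at q2
    rw [YY_re, YY_re]
    have d1 := h.diff
    have d2 := h'.diff
    linarith

end Vale.Agent.P209.H564
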