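import Vale.Agent.P209.H684.Calc
import Vale.Agent.P209.H974.Place

/-!
# P209, H564: shears `(p, θ, z) ↦ (p + ∂_θ G, θ, exp (- 2 π i ∂_{u_a} G) z_a)`
-/

namespace Vale.Agent.P209.H564

open Vale.Agent.P209 Vale.Agent.P209.H578 Vale.Agent.P209.H684
open Vale.Agent.P209.H974 (duu uu_hasFDerivAt uu_contDiff duu_apply lin_sum)
open scoped ContDiff

variable {d : ℕ}

/-- the angle and the actions -/
noncomputable def qv (w : Fin (d + 1) → ℂ) : ℝ × (Fin d → ℝ) := ((w 0).im, uu w)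

/-- the derivative of `qv` -/
noncomputable def dqv (w : Fin (d + 1) → ℂ) : (Fin (d + 1) → ℂ) →L[ℝ] ℝ × (Fin d → ℝ) :=
  (Complex.imCLM.comp (ContinuousLinearMap.proj (R := ℝ) (φ := fun _ : Fin (d + 1) => ℂ) 0)).prod
    (duu w)

lemma qv_hasFDerivAt (w : Fin (d + 1) → ℂ) : HasFDerivAt (qv (d := d)) (dqv w) w := by
  have h1 : HasFDerivAt (fun w : Fin (d + 1) → ℂ => (w 0).im)
      (Complex.imCLM.comp (ContinuousLinearMap.proj (R := ℝ) (φ := fun _ : Fin (d + 1) => ℂ) 0)) w :=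
    Complex.imCLM.hasFDerivAt.comp w (hasFDerivAt_apply 0 w)
  exact h1.prodMk (uu_hasFDerivAt w)

lemma qv_contDiff : ContDiff ℝ ∞ (qv (d := d)) :=
  (Complex.imCLM.contDiff.comp (contDiff_apply ℝ ℂ 0)).prodMk uu_contDiff

lemma dqv_fst (w v : Fin (d + 1) → ℂ) : (dqv w v).1 = (v 0).im := rfl

lemma dqv_snd (w v : Fin (d + 1) → ℂ) : (dqv w v).2 = duu w v := rfl

/-- the shear with generating function `G (θ, u)` -/
noncomputable def shr (G : ℝ × (Fin d → ℝ) → ℝ) (w : Fin (d + 1) → ℂ) : Fin (d + 1) → ℂ :=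
  Fin.cons (w 0 + ((fderiv ℝ G (qv w) (1, 0) : ℝ) : ℂ))
    (fun a => ee (-(fderiv ℝ G (qv w) (0, Pi.single a 1))) * w a.succ)

lemma shr_zero (G : ℝ × (Fin d → ℝ) → ℝ) (w : Fin (d + 1) → ℂ) :
    shr G w 0 = w 0 + ((fderiv ℝ G (qv w) (1, 0) : ℝ) : ℂ) := rfl

lemma shr_succ (G : ℝ × (Fin d → ℝ) → ℝ) (w : Fin (d + 1) → ℂ) (a : Fin d) :
    shr G w a.succ = ee (-(fderiv ℝ G (qv w) (0, Pi.single a 1))) * w a.succ := rfl

lemma shr_re (G : ℝ × (Fin d → ℝ) → ℝ) (w : Fin (d + 1) → ℂ) :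
    (shr G w 0).re = (w 0).re + fderiv ℝ G (qv w) (1, 0) := by
  rw [shr_zero]; simp

lemma shr_im (G : ℝ × (Fin d → ℝ) → ℝ) (w : Fin (d + 1) → ℂ) :
    (shr G w 0).im = (w 0).im := by
  rw [shr_zero]; simp

lemma uu_shr (G : ℝ × (Fin d → ℝ) → ℝ) (w : Fin (d + 1) → ℂ) : uu (shr G w) = uu w := by
  funext a
  show Real.pi * ‖shr G w a.succ‖ ^ 2 = Real.pi * ‖w a.succ‖ ^ 2
  rw [shr_succ, norm_mul, ee_norm, one_mul]

lemma qv_shr (G : ℝ × (Fin d → ℝ) → ℝ) (w : Fin (d + 1) → ℂ) : qv (shr G w) = qv w := by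
  unfold qv
  rw [uu_shr, shr_im]

lemma contDiffAt_fderiv_apply {G : ℝ × (Fin d → ℝ) → ℝ} {q : ℝ × (Fin d → ℝ)}
    (hG : ContDiffAt ℝ ∞ G q) (e : ℝ × (Fin d → ℝ)) :
    ContDiffAt ℝ ∞ (fun q => fderiv ℝ G q e) q :=
  (hG.fderiv_right (m := ∞) (by simp)).clm_apply contDiffAt_const

lemma shr_contDiffAt {G : ℝ × (Fin d → ℝ) → ℝ} {w : Fin (d + 1) → ℂ}
    (hG : ContDiffAt ℝ ∞ G (qv w)) : ContDiffAt ℝ ∞ (shr G) w := by
  have hq : ContDiffAt ℝ ∞ (qv (d := d)) w := qv_contDiff.contDiffAt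
  rw [contDiffAt_pi]
  intro i
  refine Fin.cases ?_ (fun a => ?_) i
  · simp only [shr_zero]
    refine (contDiff_apply ℝ ℂ 0).contDiffAt.add (Complex.ofRealCLM.contDiff.contDiffAt.comp w ?_)
    exact ContDiffAt.comp (g := fun q => fderiv ℝ G q (1, 0)) w (contDiffAt_fderiv_apply hG _) hq
  · simp only [shr_succ]
    refine ContDiffAt.mul (ee_contDiff.contDiffAt.comp w ?_) (contDiff_apply ℝ ℂ a.succ).contDiffAt
    exact (ContDiffAt.comp (g := fun q => fderiv ℝ G q (0, Pi.single a 1)) w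
      (contDiffAt_fderiv_apply hG _) hq).neg

lemma omega_succ (x y : Fin (d + 1) → ℂ) : omega x y = om1 (x 0) (y 0) +
    ∑ a : Fin d, om1 (x a.succ) (y a.succ) := by
  unfold omega om1
  rw [Fin.sum_univ_succ]

/-- the shear is symplectic -/
theorem shr_omega {G : ℝ × (Fin d → ℝ) → ℝ} {w : Fin (d + 1) → ℂ}
    (hG : ContDiffAt ℝ ∞ G (qv w)) (v v' : Fin (d + 1) → ℂ) :
    omega (fderiv ℝ (shr G) w v) (fderiv ℝ (shr G) w v') = omega v v' := by
  have hdiff : DifferentiableAt ℝ (shr G) w := (shr_contDiffAt hG).differentiableAt (by simp)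
  have hcomp := hasFDerivAt_pi'.1 hdiff.hasFDerivAt
  -- the second derivative
  have hD : DifferentiableAt ℝ (fderiv ℝ G) (qv w) :=
    (hG.fderiv_right (m := 1) (by exact WithTop.coe_le_coe.2 (by simp))).differentiableAt (by simp)
  obtain ⟨H, hH⟩ : ∃ H, H = fderiv ℝ (fderiv ℝ G) (qv w) := ⟨_, rfl⟩
  have hDe : ∀ e : ℝ × (Fin d → ℝ), HasFDerivAt (fun w : Fin (d + 1) → ℂ => fderiv ℝ G (qv w) e)
      (((ContinuousLinearMap.apply ℝ ℝ e).comp H).comp (dqv w)) w := by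
    intro e
    have h1 : HasFDerivAt (fun q => fderiv ℝ G q e) ((ContinuousLinearMap.apply ℝ ℝ e).comp H) (qv w) := by
      rw [hH]
      exact (ContinuousLinearMap.apply ℝ ℝ e).hasFDerivAt.comp (qv w) hD.hasFDerivAt
    exact HasFDerivAt.comp (g := fun q => fderiv ℝ G q e) w h1 (qv_hasFDerivAt w)
  -- slot 0
  have h0 : ∀ x, fderiv ℝ (shr G) w x 0 = x 0 + ((H (dqv w x) (1, 0) : ℝ) : ℂ) := by
    intro x
    have h1 : HasFDerivAt (fun w : Fin (d + 1) → ℂ => shr G w 0)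
        (ContinuousLinearMap.proj (R := ℝ) (φ := fun _ : Fin (d + 1) => ℂ) 0 +
          Complex.ofRealCLM.comp (((ContinuousLinearMap.apply ℝ ℝ ((1, 0) : ℝ × (Fin d → ℝ))).comp
            H).comp (dqv w))) w := by
      simp only [shr_zero]
      exact (hasFDerivAt_apply 0 w).add (Complex.ofRealCLM.hasFDerivAt.comp w (hDe (1, 0)))
    exact congrArg (fun L : (Fin (d + 1) → ℂ) →L[ℝ] ℂ => L x) ((hcomp 0).unique h1)
  -- the other slots
  have h1 : ∀ a : Fin d, om1 (fderiv ℝ (shr G) w v a.succ) (fderiv ℝ (shr G) w v' a.succ) =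
      om1 (v a.succ) (v' a.succ) + (duu w v a * -(H (dqv w v') (0, Pi.single a 1)) -
        duu w v' a * -(H (dqv w v) (0, Pi.single a 1))) := by
    intro a
    have h2 := om1_phase (hDe (0, Pi.single a 1)).neg (hasFDerivAt_apply (𝕜 := ℝ) a.succ w) v v'
    have h3 : fderiv ℝ (fun w : Fin (d + 1) → ℂ => ee (-(fderiv ℝ G (qv w) (0, Pi.single a 1))) *
        w a.succ) w = (ContinuousLinearMap.proj (R := ℝ) (φ := fun _ : Fin (d + 1) => ℂ) a.succ).comp
          (fderiv ℝ (shr G) w) := (hcomp a.succ).fderiv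
    have h4 : ∀ x, fderiv ℝ (fun w : Fin (d + 1) → ℂ =>
        ee (-(fderiv ℝ G (qv w) (0, Pi.single a 1))) * w a.succ) w x =
        fderiv ℝ (shr G) w x a.succ := fun x => by rw [h3]; rfl
    rw [← h4, ← h4]
    refine Eq.trans h2 ?_
    unfold wd
    simp only [ContinuousLinearMap.comp_apply, ContinuousLinearMap.proj_apply, arD_apply,
      ContinuousLinearMap.neg_apply, ContinuousLinearMap.apply_apply, duu_apply]
  rw [omega_succ, omega_succ, h0, h0, Finset.sum_congr rfl fun a _ => h1 a,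
    Finset.sum_add_distrib, Finset.sum_sub_distrib]
  have h2 : ∀ x y : Fin (d + 1) → ℂ, ∑ a, duu w x a * -(H (dqv w y) (0, Pi.single a 1)) =
      -(H (dqv w y) (0, duu w x)) := by
    intro x y
    have h3 := lin_sum ((H (dqv w y)).comp (ContinuousLinearMap.inr ℝ ℝ (Fin d → ℝ))) (duu w x)
    simp only [ContinuousLinearMap.comp_apply, ContinuousLinearMap.inr_apply] at h3
    rw [← h3, ← Finset.sum_neg_distrib]
    refine Finset.sum_congr rfl fun a _ => ?_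
    ring
  rw [h2, h2]
  have hsym : ∀ x y, H x y = H y x := by
    have h4 : IsSymmSndFDerivAt ℝ G (qv w) := by
      refine hG.isSymmSndFDerivAt ?_
      rw [minSmoothness_of_isRCLikeNormedField]
      exact WithTop.coe_le_coe.2 (le_top (a := (2 : ℕ∞)))
    intro x y
    rw [hH]
    exact h4 x y
  have h5 : ∀ x y : Fin (d + 1) → ℂ, H (dqv w x) (dqv w y) =
      (y 0).im * H (dqv w x) (1, 0) + H (dqv w x) (0, duu w y) := by
    intro x y
    have h6 : dqv w y = (y 0).im • ((1, 0) : ℝ × (Fin d → ℝ)) + (0, duu w y) := by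
      refine Prod.ext ?_ ?_
      · simp [dqv_fst]
      · simp [dqv_snd]
    conv_lhs => rw [h6]
    rw [map_add, map_smul, smul_eq_mul]
  have h7 := hsym (dqv w v) (dqv w v')
  rw [h5, h5] at h7
  have h8 : om1 (v 0 + ((H (dqv w v) (1, 0) : ℝ) : ℂ)) (v' 0 + ((H (dqv w v') (1, 0) : ℝ) : ℂ)) =
      om1 (v 0) (v' 0) + H (dqv w v) (1, 0) * (v' 0).im - (v 0).im * H (dqv w v') (1, 0) := by
    unfold om1
    simp
    ring
  rw [h8]
  linarith

end Vale.Agent.P209.H564
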