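import Vale.Agent.P209.H578.Defs
import Vale.Agent.P209.H684.Defs

/-!
# P209, H564: interface of the map `Theta` which moves the wall `p = g` onto the trace of `H'`
-/

namespace Vale.Agent.P209.H564

open Vale.Agent.P209 Vale.Agent.P209.H578 Vale.Agent.P209.H684
open scoped ContDiff

/-- Properties of the map `Theta`: it preserves the actions, is symplectic where `gt` is smooth,
commutes with the deck group and with `θ ↦ θ + l`, and moves the fundamental domain
`gt - 4 L < p < gt` off the trace of the hyperplane. -/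
structure ThetaSpec {k : ℕ} (R : ℝ) (V : Set (Fin (k + 2) → ℝ)) (gt : (Fin (k + 2) → ℝ) → ℝ)
    (T : (Fin (k + 3) → ℂ) → (Fin (k + 3) → ℂ)) : Prop where
  smooth : ContDiffOn ℝ ∞ T {w | uu w ∈ V}
  sympl : ∀ w, uu w ∈ V → ∀ v v', omega (fderiv ℝ T w v) (fderiv ℝ T w v') = omega v v'
  uu_eq : ∀ w, uu (T w) = uu w
  equiv : ∀ (w w' : Fin (k + 3) → ℂ) (m l : ℤ),
    T w' = Fr R (4 * m) (T w + Pi.single 0 ((l : ℂ) * Complex.I)) →
    w' = Fr R (4 * m) (w + Pi.single 0 ((l : ℂ) * Complex.I))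
  avoid : ∀ w, 0 < Lf R w → gt (uu w) - 4 * Lf R w < (w 0).re → (w 0).re < gt (uu w) →
    ∀ m : ℤ, (T w 0).re = 2 * m * Lf R w →
      ¬((Even m ∧ ee (2 * (T w 0).im) = -Complex.I) ∨ (Odd m ∧ ee (2 * (T w 0).im) = Complex.I))

end Vale.Agent.P209.H564
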